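import Vale.Agent.P160.Rate

/-! The uniform symmetric sign matrix. -/

namespace Vale.Agent.P160

open Finset Filter

/-- All real symmetric `n × n` matrices with entries `1` and `-1`. -/
def signMatrices (n : ℕ) : Set (Matrix (Fin n) (Fin n) ℝ) :=
  {A | A.IsSymm ∧ ∀ i j, A i j = 1 ∨ A i j = -1}

/-- Probability that the uniform element of `signMatrices n` satisfies `Q`. -/
noncomputable def prob (n : ℕ) (Q : Matrix (Fin n) (Fin n) ℝ → Prop) : ℝ :=
  (Nat.card {A : Matrix (Fin n) (Fin n) ℝ // A ∈ signMatrices n ∧ Q A} : ℝ)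
    / (Nat.card (signMatrices n) : ℝ)

/-- The matrix of a point of the cube. -/
noncomputable def toMatrix {n : ℕ} (ω : Pos n → Bool) : Matrix (Fin n) (Fin n) ℝ :=
  Matrix.of (ent ω)

theorem toMatrix_mem {n : ℕ} (ω : Pos n → Bool) : toMatrix ω ∈ signMatrices n := by
  refine ⟨Matrix.IsSymm.ext fun i j => ?_, fun i j => ?_⟩
  · simp [toMatrix, ent, key_comm i j]
  · simp only [toMatrix, Matrix.of_apply, ent, bitSign]
    split_ifs <;> simp

theorem toMatrix_inj {n : ℕ} : Function.Injective (toMatrix : (Pos n → Bool) → _) := by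
  intro ω ω' h
  funext u
  have := congrFun (congrFun h u.1.1) u.1.2
  have hk : key u.1.1 u.1.2 = u := by simp [key, u.2]
  simp only [toMatrix, Matrix.of_apply, ent, hk, bitSign] at this
  cases hω : ω u <;> cases hω' : ω' u <;> simp [hω, hω'] at this ⊢ <;> norm_num at this

theorem toMatrix_surj {n : ℕ} {A : Matrix (Fin n) (Fin n) ℝ} (hA : A ∈ signMatrices n) :
    ∃ ω, toMatrix ω = A := by
  classical
  refine ⟨fun u => decide (A u.1.1 u.1.2 = 1), ?_⟩
  ext i j
  simp only [toMatrix, Matrix.of_apply, ent, bitSign]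
  have hk : A (key i j).1.1 (key i j).1.2 = A i j := by
    unfold key
    split_ifs
    · rfl
    · exact hA.1.apply i j
  rcases hA.2 i j with h | h <;> simp [hk, h]; norm_num

open Classical in
theorem prob_eq {n : ℕ} (Q : Matrix (Fin n) (Fin n) ℝ → Prop) :
    prob n Q = ((univ.filter fun ω : Pos n → Bool => Q (toMatrix ω)).card : ℝ)
      / (Fintype.card (Pos n → Bool) : ℝ) := by
  have h1 : Nat.card (signMatrices n) = Fintype.card (Pos n → Bool) := by
    rw [← Nat.card_eq_fintype_card]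
    refine (Nat.card_congr (Equiv.ofBijective (fun ω => ⟨toMatrix ω, toMatrix_mem ω⟩) ⟨?_, ?_⟩)).symm
    · exact fun a b h => toMatrix_inj (congrArg Subtype.val h)
    · rintro ⟨A, hA⟩
      obtain ⟨ω, rfl⟩ := toMatrix_surj hA
      exact ⟨ω, rfl⟩
  have h2 : Nat.card {A : Matrix (Fin n) (Fin n) ℝ // A ∈ signMatrices n ∧ Q A}
      = (univ.filter fun ω : Pos n → Bool => Q (toMatrix ω)).card := by
    rw [← Fintype.card_subtype, ← Nat.card_eq_fintype_card]
    refine (Nat.card_congr (Equiv.ofBijective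
      (fun ω : {ω : Pos n → Bool // Q (toMatrix ω)} => ⟨toMatrix ω.1, toMatrix_mem _, ω.2⟩)
      ⟨?_, ?_⟩)).symm
    · exact fun a b h => Subtype.ext (toMatrix_inj (congrArg Subtype.val h))
    · rintro ⟨A, hA, hQ⟩
      obtain ⟨ω, rfl⟩ := toMatrix_surj hA
      exact ⟨⟨ω, hQ⟩, rfl⟩
  rw [prob, h1, h2]

/-- Some nonzero kernel vector has at least `12 n / log n` zero coordinates. -/
def HasKernelWithManyZeros (n : ℕ) (A : Matrix (Fin n) (Fin n) ℝ) : Prop :=
  ∃ v : Fin n → ℝ, v ≠ 0 ∧ A.mulVec v = 0 ∧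
    12 * (n : ℝ) / Real.log n ≤ (Nat.card {j : Fin n // v j = 0} : ℝ)

theorem prob_manyZeros (n : ℕ) : prob n (HasKernelWithManyZeros n)
    = ((sparseKernel n (12 * n / Real.log n)).card : ℝ) / (Fintype.card (Pos n → Bool) : ℝ) := by
  classical
  rw [prob_eq]
  congr 3
  ext ω
  simp [sparseKernel, HasKernelWithManyZeros, funext_iff, Matrix.mulVec, dotProduct, toMatrix]

theorem manyZeros_upper {a : ℝ} (ha : 1 / 2 < a) :
    ∀ᶠ n : ℕ in atTop, prob n (HasKernelWithManyZeros n) ≤ a ^ n := by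
  filter_upwards [sparseKernel_eventually_le ha] with n hn
  rw [prob_manyZeros, div_le_iff₀ (by exact_mod_cast Fintype.card_pos)]
  exact hn

theorem manyZeros_lower :
    ∀ᶠ n : ℕ in atTop, (1 / 2 : ℝ) ^ n ≤ prob n (HasKernelWithManyZeros n) := by
  filter_upwards [sparseKernel_eventually_ge] with n hn
  rw [prob_manyZeros, le_div_iff₀ (by exact_mod_cast Fintype.card_pos), one_div, inv_pow,
    inv_mul_le_iff₀ (by positivity)]
  exact hn

theorem manyZeros_rate :
    Tendsto (fun n : ℕ => prob n (HasKernelWithManyZeros n) ^ (1 / (n : ℝ))) atTop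
      (nhds (1 / 2)) := by
  have hnn : ∀ n, 0 ≤ prob n (HasKernelWithManyZeros n) := fun n => by unfold prob; positivity
  have hroot : ∀ (a : ℝ) (n : ℕ), 0 ≤ a → n ≠ 0 → (a ^ n) ^ (1 / (n : ℝ)) = a := fun a n ha hn => by
    rw [one_div, Real.pow_rpow_inv_natCast ha hn]
  refine tendsto_order.2 ⟨fun b hb => ?_, fun b hb => ?_⟩
  · filter_upwards [manyZeros_lower, eventually_ne_atTop 0] with n hn hn0
    calc b < 1 / 2 := hb
      _ = ((1 / 2 : ℝ) ^ n) ^ (1 / (n : ℝ)) := (hroot _ n (by norm_num) hn0).symm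
      _ ≤ _ := Real.rpow_le_rpow (by positivity) hn (by positivity)
  · obtain ⟨a, ha1, ha2⟩ := exists_between hb
    filter_upwards [manyZeros_upper ha1, eventually_ne_atTop 0] with n hn hn0
    calc _ ≤ (a ^ n) ^ (1 / (n : ℝ)) := Real.rpow_le_rpow (hnn n) hn (by positivity)
      _ = a := hroot _ n (by linarith) hn0
      _ < b := ha2

/-- Singularity at rate above `1/2` needs almost fully supported kernels. -/
theorem singular_reduction {a : ℝ} (ha : 1 / 2 < a) :
    ∀ᶠ n : ℕ in atTop, prob n (fun A => A.det = 0) ≤ a ^ n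
      + prob n (fun A => A.det = 0 ∧ ∀ v : Fin n → ℝ, v ≠ 0 → A.mulVec v = 0 →
          (Nat.card {j : Fin n // v j = 0} : ℝ) < 12 * (n : ℝ) / Real.log n) := by
  classical
  filter_upwards [manyZeros_upper ha] with n hn
  refine le_trans ?_ (add_le_add hn le_rfl)
  rw [prob_eq, prob_eq, prob_eq, ← add_div]
  refine div_le_div_of_nonneg_right ?_ (Nat.cast_nonneg _)
  rw [← Nat.cast_add, Nat.cast_le]
  refine le_trans (card_le_card fun ω hω => ?_) (card_union_le _ _)
  rw [mem_filter] at hω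
  simp only [mem_union, mem_filter]
  by_cases h : HasKernelWithManyZeros n (toMatrix ω)
  · exact Or.inl ⟨mem_univ _, h⟩
  · refine Or.inr ⟨mem_univ _, hω.2, fun v hv hAv => ?_⟩
    by_contra hc
    exact h ⟨v, hv, hAv, not_lt.1 hc⟩

end Vale.Agent.P160
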