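import Vale.Agent.P160.Pattern
import Vale.Agent.P160.Model

/-! Kernel vectors with repeated absolute values. -/

namespace Vale.Agent.P160

open Finset Filter Nat

theorem prod_rank {α : Type*} [DecidableEq α] (ρ : α → ℕ) (hρ : Function.Injective ρ)
    (A : Finset α) : ∏ i ∈ A, (A.filter fun j => ρ i ≤ ρ j).card = (A.card)! := by
  induction A using Finset.induction_on_min_value ρ with
  | empty => simp
  | insert a A ha hle ih =>
    rw [prod_insert ha, card_insert_of_notMem ha, Nat.factorial_succ, ← ih]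
    congr 1
    · rw [filter_true_of_mem, card_insert_of_notMem ha]
      intro j hj
      rcases mem_insert.1 hj with rfl | hj
      · exact le_rfl
      · exact hle j hj
    · refine prod_congr rfl fun i hi => ?_
      rw [filter_insert, if_neg]
      exact fun h => ha ((hρ (le_antisymm h (hle i hi))) ▸ hi)

variable {n : ℕ}

/-- Representative functions allowed by the supports `S`, `R` and the representatives `P`. -/
def repChoices (S R P : Finset (Fin n)) : Finset (Fin n → Fin n) :=
  Fintype.piFinset fun j =>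
    if j ∈ P ∨ j ∉ S then {j} else if j ∈ R then univ else P \ R

theorem card_repChoices {S R P : Finset (Fin n)} (hP : P ⊆ S) (hR : R.card + 1 = P.card) :
    (repChoices S R P).card ≤ (P \ R).card ^ ((S \ R) \ P).card * n ^ (P \ R).card := by
  classical
  rw [repChoices, Fintype.card_piFinset]
  have hsplit : ∀ j : Fin n, (if j ∈ P ∨ j ∉ S then ({j} : Finset (Fin n))
      else if j ∈ R then univ else P \ R).card
        = (if j ∈ (S \ R) \ P then (P \ R).card else 1) * (if j ∈ (S ∩ R) \ P then n else 1) := by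
    intro j
    by_cases h1 : j ∈ P ∨ j ∉ S
    · rw [if_pos h1, if_neg, if_neg] <;> simp <;> tauto
    · rw [if_neg h1]
      push Not at h1
      by_cases h2 : j ∈ R <;> simp [h1, h2]
  rw [prod_congr rfl fun j _ => hsplit j, prod_mul_distrib, prod_ite_mem_eq, prod_ite_mem_eq,
    prod_const, prod_const]
  refine Nat.mul_le_mul_left _ ?_
  rcases Nat.eq_zero_or_pos n with rfl | hn
  · have : P = ∅ := Subsingleton.elim _ _
    simp [this] at hR
  refine Nat.pow_le_pow_right hn ?_
  have h1 : ((S ∩ R) \ P).card ≤ (R \ P).card :=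
    card_le_card (sdiff_subset_sdiff inter_subset_right subset_rfl)
  have h2 : (R \ P).card + (R ∩ P).card = R.card := card_sdiff_add_card_inter _ _
  have h3 : (P \ R).card + (R ∩ P).card = P.card := by
    rw [inter_comm]; exact card_sdiff_add_card_inter _ _
  omega

theorem prod_weight_le {S R P : Finset (Fin n)} (hP : P ⊆ S) (hR : R.card + 1 = P.card)
    {g : Fin n → Fin n} (hg : g ∈ repChoices S R P) :
    ∏ i ∈ Rᶜ, weight (patFresh S R (fun j => if j ∈ P then n + j else j) i).card
        ((patFresh S R (fun j => if j ∈ P then n + j else j) i).image g).card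
      ≤ 5 ^ n / ((((P \ R).card)! : ℝ) * ((P \ R).card : ℝ) ^ ((S \ R) \ P).card
          * ((((S \ R).card)! : ℕ) : ℝ) ^ (1 / 6 : ℝ)) := by
  classical
  set ρ : Fin n → ℕ := fun j => if j ∈ P then n + j else j with hρdef
  have hρ : Function.Injective ρ := by
    intro a b h
    simp only [hρdef] at h
    split_ifs at h <;> exact Fin.ext (by omega)
  have hfix : ∀ j ∈ P, g j = j := fun j hj => by
    simpa [hj] using (Fintype.mem_piFinset.1 hg) j
  set T := S \ R
  set Q := P \ R
  have hQ : 1 ≤ Q.card := by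
    have := le_card_sdiff R P
    show 1 ≤ (P \ R).card
    omega
  have hQT : Q ⊆ T := sdiff_subset_sdiff hP subset_rfl
  have hTfresh : ∀ i ∈ T, patFresh S R ρ i = T.filter fun j => ρ i ≤ ρ j := by
    intro i hi
    ext j
    simp only [patFresh, T, mem_filter, Finset.mem_sdiff] at hi ⊢
    tauto
  have himgQ : ∀ i, Q ⊆ patFresh S R ρ i → Q.card ≤ ((patFresh S R ρ i).image g).card := by
    intro i h
    refine card_le_card fun j hj => mem_image.2 ⟨j, h hj, hfix j (Finset.mem_sdiff.1 hj).1⟩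
  have hout : ∀ i ∈ Sᶜ, Q ⊆ patFresh S R ρ i := by
    intro i hi j hj
    exact mem_filter.2 ⟨hP (Finset.mem_sdiff.1 hj).1, Or.inl (mem_compl.1 hi)⟩
  have hQfresh : ∀ i ∈ Q, (Q.filter fun j => ρ i ≤ ρ j).card
      ≤ ((patFresh S R ρ i).image g).card := by
    intro i hi
    refine card_le_card fun j hj => ?_
    obtain ⟨hjQ, hij⟩ := mem_filter.1 hj
    refine mem_image.2 ⟨j, ?_, hfix j (Finset.mem_sdiff.1 hjQ).1⟩
    rw [hTfresh i (hQT hi)]
    exact mem_filter.2 ⟨hQT hjQ, hij⟩
  have hbig : ∀ i ∈ Rᶜ \ Q, Q.card ≤ ((patFresh S R ρ i).image g).card := by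
    intro i hi
    refine himgQ i ?_
    simp only [Finset.mem_sdiff, mem_compl, Q, not_and, not_not] at hi
    by_cases hiS : i ∈ S
    · intro j hj
      rw [hTfresh i (Finset.mem_sdiff.2 ⟨hiS, hi.1⟩)]
      refine mem_filter.2 ⟨hQT hj, ?_⟩
      have hiP : i ∉ P := fun h => hi.1 (hi.2 h)
      simp only [hρdef, if_neg hiP, if_pos (Finset.mem_sdiff.1 hj).1]
      omega
    · exact hout i (mem_compl.2 hiS)
  have hd : (Q.card)! * Q.card ^ (T \ Q).card ≤ ∏ i ∈ Rᶜ, ((patFresh S R ρ i).image g).card := by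
    have hQR : Q ⊆ Rᶜ := fun x hx => mem_compl.2 (Finset.mem_sdiff.1 hx).2
    rw [← prod_sdiff hQR, mul_comm, ← prod_rank ρ hρ Q]
    refine Nat.mul_le_mul ?_ (prod_le_prod' hQfresh)
    refine le_trans ?_ (prod_le_prod' hbig)
    rw [prod_const]
    refine Nat.pow_le_pow_right (by omega) (card_le_card fun x hx => ?_)
    simp only [Finset.mem_sdiff, mem_compl, T] at hx ⊢
    exact ⟨hx.1.2, hx.2⟩
  have hm : (T.card)! ≤ ∏ i ∈ Rᶜ, ((patFresh S R ρ i).card + 1) := by
    rw [← prod_rank ρ hρ T]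
    have hTR : T ⊆ Rᶜ := fun x hx => mem_compl.2 (Finset.mem_sdiff.1 hx).2
    refine le_trans ?_ (prod_le_prod_of_subset_of_one_le' hTR fun i _ _ => Nat.le_add_left 1 _)
    refine prod_le_prod' fun i hi => ?_
    rw [hTfresh i hi]
    exact Nat.le_succ _
  have hQTdiff : T \ P = T \ Q := by
    ext x
    simp only [T, Q, Finset.mem_sdiff]
    tauto
  rw [hQTdiff]
  simp only [weight, prod_div_distrib, prod_mul_distrib, prod_const]
  rw [Real.finsetProd_rpow _ _ (fun i _ => by positivity)]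
  have hd' : ((Q.card)! : ℝ) * (Q.card : ℝ) ^ (T \ Q).card
      ≤ ∏ i ∈ Rᶜ, (((patFresh S R ρ i).image g).card : ℝ) := by exact_mod_cast hd
  have hm' : ((T.card)! : ℝ) ≤ ∏ i ∈ Rᶜ, (((patFresh S R ρ i).card : ℝ) + 1) := by
    exact_mod_cast hm
  have hQ0 : (0 : ℝ) < Q.card := by exact_mod_cast hQ
  have hC : (5 : ℝ) ^ Rᶜ.card ≤ 5 ^ n := by
    refine pow_le_pow_right₀ (by norm_num) ?_
    have := (Rᶜ).card_le_univ
    simpa using this
  refine div_le_div₀ (by positivity) hC (by positivity) ?_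
  have h6 : ((T.card)! : ℝ) ^ (1 / 6 : ℝ)
      ≤ (∏ i ∈ Rᶜ, (((patFresh S R ρ i).card : ℝ) + 1)) ^ (1 / 6 : ℝ) :=
    Real.rpow_le_rpow (Nat.cast_nonneg _) hm' (by norm_num)
  have hnn : (0 : ℝ) ≤ ((T.card)! : ℝ) ^ (1 / 6 : ℝ) := Real.rpow_nonneg (Nat.cast_nonneg _) _
  have hnn' : (0 : ℝ) ≤ ∏ i ∈ Rᶜ, (((patFresh S R ρ i).image g).card : ℝ) :=
    prod_nonneg fun i _ => Nat.cast_nonneg _
  exact mul_le_mul hd' h6 hnn hnn'

open Classical in
/-- Points whose matrix kills a vector with few zeros and at least `L` repeated rows. -/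
noncomputable def repeatKernel (n L : ℕ) : Finset (Pos n → Bool) :=
  univ.filter fun ω => ∃ v : Fin n → ℝ, v ≠ 0 ∧ (∀ i, ∑ j, ent ω i j * v j = 0) ∧
    L + ((univ.filter fun j => v j ≠ 0).image fun j => |v j|).card
      ≤ (univ.filter fun j => v j ≠ 0).card + 1

theorem repeatKernel_card_le (n L : ℕ) :
    ((repeatKernel n L).card : ℝ)
      ≤ 224 ^ n / ((L ! : ℕ) : ℝ) ^ (1 / 6 : ℝ) * Fintype.card (Pos n → Bool) := by
  classical
  let Idx := univ.filter fun p : (Finset (Fin n) × Finset (Fin n)) ×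
      (Finset (Fin n) × (Fin n → Bool)) =>
    p.2.1 ⊆ p.1.1 ∧ p.1.2.card + 1 = p.2.1.card ∧ L ≤ (p.1.1 \ p.1.2).card
  have hsub : repeatKernel n L ⊆ Idx.biUnion fun p =>
      (repChoices p.1.1 p.1.2 p.2.1).biUnion fun g => patEqs p.1.1 p.1.2 p.1.2ᶜ p.2.2 g := by
    intro ω hω
    simp only [repeatKernel, mem_filter, mem_univ, true_and] at hω
    obtain ⟨v, hv, hAv, hL⟩ := hω
    obtain ⟨S, R, P, σ, g, hS, hPS, hR, hP, hfix, hpref, hmem⟩ := exists_patEqs ω v hv hAv
    refine mem_biUnion.2 ⟨((S, R), (P, σ)), mem_filter.2 ⟨mem_univ _, hPS, hR, ?_⟩,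
      mem_biUnion.2 ⟨g, Fintype.mem_piFinset.2 fun j => ?_, hmem⟩⟩
    · have := le_card_sdiff R S
      subst hS
      simp only at *
      omega
    · split_ifs with h1 h2
      · simp [hfix j h1]
      · exact mem_univ _
      · push Not at h1
        exact hpref j (Finset.mem_sdiff.2 ⟨h1.2, h2⟩)
  have hterm : ∀ p ∈ Idx,
      ((((repChoices p.1.1 p.1.2 p.2.1).biUnion fun g => patEqs p.1.1 p.1.2 p.1.2ᶜ p.2.2 g).card
        : ℕ) : ℝ) ≤ 14 ^ n / ((L ! : ℕ) : ℝ) ^ (1 / 6 : ℝ) * Fintype.card (Pos n → Bool) := by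
    intro p hp
    obtain ⟨hPS, hR, hL⟩ := (mem_filter.1 hp).2
    obtain ⟨⟨S, R⟩, P, σ⟩ := p
    simp only at hPS hR hL ⊢
    have hS : S.Nonempty := (card_pos.1 (by omega : 0 < P.card)).mono hPS
    set ρ : Fin n → ℕ := fun j => if j ∈ P then n + j else j with hρdef
    have hρ : Function.Injective ρ := by
      intro a b h
      simp only [hρdef] at h
      split_ifs at h <;> exact Fin.ext (by omega)
    set q := (P \ R).card
    set e := ((S \ R) \ P).card
    set γ : ℝ := (((S \ R).card ! : ℕ) : ℝ) ^ (1 / 6 : ℝ)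
    have hq : 1 ≤ q := by
      have := le_card_sdiff R P
      omega
    calc ((((repChoices S R P).biUnion fun g => patEqs S R Rᶜ σ g).card : ℕ) : ℝ)
        ≤ ∑ g ∈ repChoices S R P, ((patEqs S R Rᶜ σ g).card : ℝ) := by
          exact_mod_cast card_biUnion_le
      _ ≤ ∑ _g ∈ repChoices S R P,
            5 ^ n / ((q ! : ℝ) * (q : ℝ) ^ e * γ) * Fintype.card (Pos n → Bool) :=
          sum_le_sum fun g hg => (patEqs_card S R σ g ρ hρ hS _ fun i hi => mem_compl.1 hi).trans
            (mul_le_mul_of_nonneg_right (prod_weight_le hPS hR hg) (Nat.cast_nonneg _))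
      _ ≤ _ := by
          rw [sum_const, nsmul_eq_mul, ← mul_assoc]
          refine mul_le_mul_of_nonneg_right ?_ (Nat.cast_nonneg _)
          have hq0 : (0 : ℝ) < q := by exact_mod_cast hq
          have hγ : ((L ! : ℕ) : ℝ) ^ (1 / 6 : ℝ) ≤ γ :=
            Real.rpow_le_rpow (by positivity) (by exact_mod_cast Nat.factorial_le hL) (by norm_num)
          have hγ0 : 0 < γ := by positivity
          have he : (n : ℝ) ^ q / (q ! : ℝ) ≤ (14 / 5) ^ n := by
            refine (Real.pow_div_factorial_le_exp _ (Nat.cast_nonneg n) q).trans ?_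
            rw [← Real.exp_one_pow]
            exact pow_le_pow_left₀ (Real.exp_pos 1).le (by linarith [Real.exp_one_lt_d9]) n
          calc ((repChoices S R P).card : ℝ) * (5 ^ n / ((q ! : ℝ) * (q : ℝ) ^ e * γ))
              ≤ ((q : ℝ) ^ e * (n : ℝ) ^ q) * (5 ^ n / ((q ! : ℝ) * (q : ℝ) ^ e * γ)) :=
                mul_le_mul_of_nonneg_right (by exact_mod_cast card_repChoices hPS hR)
                  (by positivity)
            _ = ((n : ℝ) ^ q / (q ! : ℝ)) * 5 ^ n / γ := by field_simp
            _ ≤ (14 / 5) ^ n * 5 ^ n / γ := by gcongr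
            _ = 14 ^ n / γ := by rw [← mul_pow]; norm_num
            _ ≤ _ := div_le_div_of_nonneg_left (by positivity) (by positivity) hγ
  have hIdx : (Idx.card : ℝ) ≤ 16 ^ n := by
    have := Idx.card_le_univ
    simp only [Fintype.card_prod, Fintype.card_finset, Fintype.card_fun, Fintype.card_fin,
      Fintype.card_bool] at this
    have h16 : 16 ^ n = 2 ^ n * 2 ^ n * (2 ^ n * 2 ^ n) := by
      rw [← mul_pow, ← mul_pow]; norm_num
    rw [← h16] at this
    exact_mod_cast this
  calc ((repeatKernel n L).card : ℝ)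
      ≤ ∑ p ∈ Idx, ((((repChoices p.1.1 p.1.2 p.2.1).biUnion
          fun g => patEqs p.1.1 p.1.2 p.1.2ᶜ p.2.2 g).card : ℕ) : ℝ) := by
        exact_mod_cast (card_le_card hsub).trans card_biUnion_le
    _ ≤ ∑ _p ∈ Idx, 14 ^ n / ((L ! : ℕ) : ℝ) ^ (1 / 6 : ℝ) * Fintype.card (Pos n → Bool) :=
        sum_le_sum hterm
    _ ≤ _ := by
        rw [sum_const, nsmul_eq_mul, ← mul_assoc, mul_div_assoc']
        refine mul_le_mul_of_nonneg_right (div_le_div_of_nonneg_right ?_ (by positivity))
          (Nat.cast_nonneg _)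
        calc (Idx.card : ℝ) * 14 ^ n ≤ 16 ^ n * 14 ^ n := by gcongr
          _ = 224 ^ n := by rw [← mul_pow]; norm_num

theorem repeat_eventually :
    ∀ᶠ n : ℕ in atTop, ∀ L : ℕ, 48 * (n : ℝ) / Real.log n ≤ L →
      (224 : ℝ) ^ n / ((L ! : ℕ) : ℝ) ^ (1 / 6 : ℝ) ≤ (1 / 2) ^ n := by
  have hcast : Tendsto (fun n : ℕ => (n : ℝ)) atTop atTop := tendsto_natCast_atTop_atTop
  have ho := Real.isLittleO_log_id_atTop.def (show (0 : ℝ) < 1 / 20 by norm_num)
  filter_upwards [(Real.tendsto_log_atTop.comp hcast).eventually ho,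
    (Real.tendsto_log_atTop.comp hcast).eventually_ge_atTop 20,
    eventually_ge_atTop 2] with n h1 h2 hn L hL
  simp only [Function.comp, id, Real.norm_eq_abs] at h1 h2
  set l := Real.log n with hl
  have hl0 : 0 < l := by linarith
  have hn0 : (0 : ℝ) < n := by positivity
  rw [abs_of_pos hl0, abs_of_nonneg (Real.log_nonneg (by linarith))] at h1
  have hL0 : (0 : ℝ) < L := lt_of_lt_of_le (by positivity) hL
  have hlogL : 0.9 * l + 1 ≤ Real.log L := by
    have := Real.log_le_log (by positivity) hL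
    rw [Real.log_div (by positivity) hl0.ne', Real.log_mul (by norm_num) hn0.ne', ← hl] at this
    have : 0 ≤ Real.log 48 := Real.log_nonneg (by norm_num)
    linarith
  have hfac : (L : ℝ) * (Real.log L - 1) ≤ Real.log (L ! : ℝ) := by
    have h := Real.pow_div_factorial_le_exp (L : ℝ) hL0.le L
    have h' := Real.log_le_log (by positivity) h
    rw [Real.log_div (by positivity) (by positivity), Real.log_pow, Real.log_exp] at h'
    linarith
  have hmain : 6 * (n : ℝ) * Real.log 448 ≤ Real.log (L ! : ℝ) := by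
    have hlog2 := Real.log_two_lt_d9
    have h448 : Real.log 448 ≤ 9 * Real.log 2 := by
      rw [show (9 : ℝ) * Real.log 2 = Real.log (2 ^ 9) by rw [Real.log_pow]; norm_num]
      exact Real.log_le_log (by norm_num) (by norm_num)
    have hb : (48 * (n : ℝ) / l) * (0.9 * l) ≤ (L : ℝ) * (Real.log L - 1) :=
      mul_le_mul hL (by linarith) (by positivity) hL0.le
    have he : (48 * (n : ℝ) / l) * (0.9 * l) = 43.2 * n := by field_simp; norm_num
    rw [he] at hb
    nlinarith
  have hpow : (448 : ℝ) ^ n ≤ ((L ! : ℕ) : ℝ) ^ (1 / 6 : ℝ) := by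
    rw [← Real.log_le_log_iff (by positivity) (by positivity), Real.log_pow,
      Real.log_rpow (by positivity)]
    linarith
  rw [div_le_iff₀ (by positivity)]
  calc (224 : ℝ) ^ n = (1 / 2) ^ n * 448 ^ n := by rw [← mul_pow]; norm_num
    _ ≤ _ := mul_le_mul_of_nonneg_left hpow (by positivity)

/-- Some nonzero kernel vector has at least `12 n / log n` zeros, or has at most
`n - 60 n / log n` distinct absolute values of coordinates. -/
def HasKernelWithRepeats (n : ℕ) (A : Matrix (Fin n) (Fin n) ℝ) : Prop :=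
  ∃ v : Fin n → ℝ, v ≠ 0 ∧ A.mulVec v = 0 ∧
    (12 * (n : ℝ) / Real.log n ≤ (Nat.card {j : Fin n // v j = 0} : ℝ) ∨
      (Set.ncard (Set.range fun j => |v j|) : ℝ) ≤ n - 60 * (n : ℝ) / Real.log n)

theorem repeats_upper {a : ℝ} (ha : 1 / 2 < a) :
    ∀ᶠ n : ℕ in atTop, prob n (HasKernelWithRepeats n) ≤ a ^ n := by
  classical
  obtain ⟨b, hb1, hb2⟩ := exists_between ha
  have hpow : ∀ᶠ n : ℕ in atTop, b ^ n + (1 / 2 : ℝ) ^ n ≤ a ^ n := by
    have h : Tendsto (fun n : ℕ => (b / a) ^ n + (1 / 2 / a) ^ n) atTop (nhds 0) := by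
      simpa using (tendsto_pow_atTop_nhds_zero_of_lt_one (by positivity)
        (by rw [div_lt_one (by linarith)]; exact hb2)).add
        (tendsto_pow_atTop_nhds_zero_of_lt_one
          (show (0 : ℝ) ≤ 1 / 2 / a by positivity) (by rw [div_lt_one (by linarith)]; exact ha))
    filter_upwards [h.eventually_le_const (show (0 : ℝ) < 1 by norm_num)] with n hn
    rw [div_pow, div_pow _ a, ← add_div, div_le_one (pow_pos (by linarith) n)] at hn
    exact hn
  filter_upwards [sparseKernel_eventually_le hb1, repeat_eventually, hpow] with n h1 h2 h3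
  set L := ⌈48 * (n : ℝ) / Real.log n⌉₊ with hLdef
  rw [prob_eq, div_le_iff₀ (by exact_mod_cast Fintype.card_pos)]
  have hN : (0 : ℝ) ≤ (Fintype.card (Pos n → Bool) : ℕ) := Nat.cast_nonneg _
  calc ((univ.filter fun ω : Pos n → Bool => HasKernelWithRepeats n (toMatrix ω)).card : ℝ)
      ≤ ((sparseKernel n (12 * n / Real.log n) ∪ repeatKernel n L).card : ℝ) := by
        refine Nat.cast_le.2 (card_le_card fun ω hω => ?_)
        obtain ⟨v, hv, hAv, hcase⟩ := (mem_filter.1 hω).2
        have hk : ∀ i, ∑ j, ent ω i j * v j = 0 := fun i => congrFun hAv i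
        by_cases hz : 12 * (n : ℝ) / Real.log n ≤ (Nat.card {j : Fin n // v j = 0} : ℝ)
        · exact mem_union_left _ (mem_filter.2 ⟨mem_univ _, v, hv, hk, hz⟩)
        refine mem_union_right _ (mem_filter.2 ⟨mem_univ _, v, hv, hk, ?_⟩)
        have hd := hcase.resolve_left hz
        rw [not_le] at hz
        set S := univ.filter fun j => v j ≠ 0
        have h4 : Nat.card {j : Fin n // v j = 0} + S.card = n := by
          rw [Nat.card_eq_fintype_card, Fintype.card_subtype]
          simpa using card_filter_add_card_filter_not (s := (univ : Finset (Fin n))) fun j => v j = 0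
        have h5 : ((S.image fun j => |v j|).card : ℝ) ≤ (Set.range fun j => |v j|).ncard := by
          refine Nat.cast_le.2 ?_
          rw [← Set.image_univ, ← coe_univ, ← coe_image, Set.ncard_coe_finset]
          exact card_le_card (image_subset_image (subset_univ _))
        have hDS : (S.image fun j => |v j|).card ≤ S.card := card_image_le
        suffices L ≤ S.card + 1 - (S.image fun j => |v j|).card by omega
        refine Nat.ceil_le.2 ?_
        rw [Nat.cast_sub (by omega)]
        push_cast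
        have h4' : (Nat.card {j : Fin n // v j = 0} : ℝ) + S.card = n := by exact_mod_cast h4
        have e : 60 * (n : ℝ) / Real.log n - 12 * n / Real.log n = 48 * n / Real.log n := by ring
        linarith
    _ ≤ ((sparseKernel n (12 * n / Real.log n)).card : ℝ) + (repeatKernel n L).card := by
        exact_mod_cast card_union_le _ _
    _ ≤ b ^ n * Fintype.card (Pos n → Bool) + (1 / 2) ^ n * Fintype.card (Pos n → Bool) :=
        add_le_add h1 ((repeatKernel_card_le n L).trans
          (mul_le_mul_of_nonneg_right (h2 L (Nat.le_ceil _)) hN))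
    _ ≤ a ^ n * Fintype.card (Pos n → Bool) := by
        rw [← add_mul]; exact mul_le_mul_of_nonneg_right h3 hN

theorem repeats_lower :
    ∀ᶠ n : ℕ in atTop, (1 / 2 : ℝ) ^ n ≤ prob n (HasKernelWithRepeats n) := by
  classical
  filter_upwards [manyZeros_lower] with n hn
  refine hn.trans ?_
  rw [prob_eq, prob_eq]
  refine div_le_div_of_nonneg_right (Nat.cast_le.2 (card_le_card fun ω hω => ?_)) (Nat.cast_nonneg _)
  obtain ⟨v, hv, hAv, h⟩ := (mem_filter.1 hω).2
  exact mem_filter.2 ⟨mem_univ _, v, hv, hAv, Or.inl h⟩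

theorem repeats_rate :
    Tendsto (fun n : ℕ => prob n (HasKernelWithRepeats n) ^ (1 / (n : ℝ))) atTop
      (nhds (1 / 2)) := by
  have hnn : ∀ n, 0 ≤ prob n (HasKernelWithRepeats n) := fun n => by unfold prob; positivity
  have hroot : ∀ (a : ℝ) (n : ℕ), 0 ≤ a → n ≠ 0 → (a ^ n) ^ (1 / (n : ℝ)) = a := fun a n ha hn => by
    rw [one_div, Real.pow_rpow_inv_natCast ha hn]
  refine tendsto_order.2 ⟨fun b hb => ?_, fun b hb => ?_⟩
  · filter_upwards [repeats_lower, eventually_ne_atTop 0] with n hn hn0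
    calc b < 1 / 2 := hb
      _ = ((1 / 2 : ℝ) ^ n) ^ (1 / (n : ℝ)) := (hroot _ n (by norm_num) hn0).symm
      _ ≤ _ := Real.rpow_le_rpow (by positivity) hn (by positivity)
  · obtain ⟨a, ha1, ha2⟩ := exists_between hb
    filter_upwards [repeats_upper ha1, eventually_ne_atTop 0] with n hn hn0
    calc _ ≤ (a ^ n) ^ (1 / (n : ℝ)) := Real.rpow_le_rpow (hnn n) hn (by positivity)
      _ = a := hroot _ n (by linarith) hn0
      _ < b := ha2

/-- Singularity at rate above `1/2` needs kernels with almost all absolute values distinct. -/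
theorem singular_reduction_repeats {a : ℝ} (ha : 1 / 2 < a) :
    ∀ᶠ n : ℕ in atTop, prob n (fun A => A.det = 0) ≤ a ^ n
      + prob n (fun A => A.det = 0 ∧ ∀ v : Fin n → ℝ, v ≠ 0 → A.mulVec v = 0 →
          (Nat.card {j : Fin n // v j = 0} : ℝ) < 12 * (n : ℝ) / Real.log n ∧
          (n : ℝ) - 60 * (n : ℝ) / Real.log n < (Set.ncard (Set.range fun j => |v j|) : ℝ)) := by
  classical
  filter_upwards [repeats_upper ha] with n hn
  refine le_trans ?_ (add_le_add hn le_rfl)
  rw [prob_eq, prob_eq, prob_eq, ← add_div]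
  refine div_le_div_of_nonneg_right ?_ (Nat.cast_nonneg _)
  rw [← Nat.cast_add, Nat.cast_le]
  refine le_trans (card_le_card fun ω hω => ?_) (card_union_le _ _)
  rw [mem_filter] at hω
  simp only [mem_union, mem_filter]
  by_cases h : HasKernelWithRepeats n (toMatrix ω)
  · exact Or.inl ⟨mem_univ _, h⟩
  · refine Or.inr ⟨mem_univ _, hω.2, fun v hv hAv => ⟨?_, ?_⟩⟩ <;> by_contra hc
    · exact h ⟨v, hv, hAv, Or.inl (not_lt.1 hc)⟩
    · exact h ⟨v, hv, hAv, Or.inr (not_lt.1 hc)⟩

end Vale.Agent.P160
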