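import Vale.Agent.P160.ModP
import Vale.Agent.P160.Repeats

/-! Kernel vectors with a large Littlewood-Offord atom. -/

namespace Vale.Agent.P160

open Finset Filter

/-- Some nonzero kernel vector `v` has a value of `∑ j, ± v j` of probability at least
`exp (- √n / 1024)` under uniform independent signs. -/
def HasKernelWithAtom (n : ℕ) (A : Matrix (Fin n) (Fin n) ℝ) : Prop :=
  ∃ v : Fin n → ℝ, v ≠ 0 ∧ A.mulVec v = 0 ∧ ∃ x : ℝ,
    Real.exp (- Real.sqrt n / 1024)
      ≤ (Nat.card {ε : Fin n → Bool // ∑ j, (if ε j then v j else - v j) = x} : ℝ) / 2 ^ n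

/-- The integer sign of a bit. -/
def intSign (b : Bool) : ℤ := if b then 1 else -1

theorem intSign_real (b : Bool) : (intSign b : ℝ) = bitSign b := by
  cases b <;> simp [intSign, bitSign]

theorem intSign_mod (p : ℕ) (b : Bool) : ((intSign b : ℤ) : ZMod p) = unitSign b := by
  cases b <;> simp [intSign, unitSign]

/-- A real solution of an integer system gives an integer one, nonzero modulo `p`. -/
theorem exists_int_solution {n : ℕ} {ι : Type*} [Fintype ι] (M : Matrix ι (Fin n) ℤ)
    (v : Fin n → ℝ) (hv : v ≠ 0) (h : ∀ r, ∑ j, (M r j : ℝ) * v j = 0) {p : ℕ} (hp : p.Prime) :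
    ∃ w : Fin n → ℤ, (∀ r, ∑ j, M r j * w j = 0) ∧ ∃ j, (w j : ZMod p) ≠ 0 := by
  classical
  let G : Matrix (Fin n) (Fin n) ℤ := M.transpose * M
  have hGR : (G.map (Int.castRingHom ℝ)).mulVec v = 0 := by
    have e : (M.map (Int.castRingHom ℝ)).mulVec v = 0 := by
      funext r
      simpa [Matrix.mulVec, dotProduct] using h r
    rw [Matrix.map_mul, ← Matrix.mulVec_mulVec, e, Matrix.mulVec_zero]
  have hdet : G.det = 0 := by
    have h1 := Matrix.exists_mulVec_eq_zero_iff.1 ⟨v, hv, hGR⟩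
    rw [← RingHom.mapMatrix_apply, ← RingHom.map_det] at h1
    simpa using h1
  obtain ⟨w, hw, hGw⟩ := Matrix.exists_mulVec_eq_zero_iff.2 hdet
  have hMw : ∀ r, ∑ j, M r j * w j = 0 := by
    have e : dotProduct (M.mulVec w) (M.mulVec w) = 0 := by
      have e' : dotProduct w (G.mulVec w) = dotProduct (M.mulVec w) (M.mulVec w) := by
        rw [← Matrix.mulVec_mulVec, Matrix.dotProduct_mulVec, Matrix.vecMul_transpose]
      rw [← e', hGw, dotProduct_zero]
    intro r
    have := congrFun (dotProduct_self_eq_zero.1 e) r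
    simpa [Matrix.mulVec, dotProduct] using this
  obtain ⟨j₀, hj₀⟩ := Function.ne_iff.1 hw
  obtain ⟨g, hg, hg1⟩ := Finset.extract_gcd w (s := univ) ⟨j₀, mem_univ _⟩
  have hd : univ.gcd w ≠ 0 := fun h0 => hj₀ (by simpa using Finset.gcd_eq_zero_iff.1 h0 j₀ (mem_univ _))
  refine ⟨g, fun r => ?_, ?_⟩
  · have := hMw r
    rw [sum_congr rfl fun j _ => show M r j * w j = univ.gcd w * (M r j * g j) by
      rw [hg j (mem_univ _)]; ring, ← mul_sum] at this
    exact (mul_eq_zero.1 this).resolve_left hd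
  · by_contra hall
    push Not at hall
    have hdvd : (p : ℤ) ∣ univ.gcd g := Finset.dvd_gcd fun j _ =>
      (ZMod.intCast_zmod_eq_zero_iff_dvd (g j) p).1 (hall j)
    rw [hg1] at hdvd
    have := Int.le_of_dvd one_pos hdvd
    have := hp.two_le
    omega

theorem atom_subset_modKernel {n p : ℕ} [Fact p.Prime] {τ : ℝ} (hτ : 0 < τ) (ω : Pos n → Bool)
    (v : Fin n → ℝ) (hv : v ≠ 0) (hAv : ∀ i, ∑ j, ent ω i j * v j = 0) (x : ℝ)
    (hx : τ ≤ (Nat.card {ε : Fin n → Bool // ∑ j, (if ε j then v j else - v j) = x} : ℝ) / 2 ^ n) :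
    ω ∈ modKernel n p τ := by
  classical
  set L := univ.filter fun ε : Fin n → Bool => ∑ j, (if ε j then v j else - v j) = x with hL
  have hcard : Nat.card {ε : Fin n → Bool // ∑ j, (if ε j then v j else - v j) = x} = L.card := by
    rw [Nat.card_eq_fintype_card, Fintype.card_subtype]
  rw [hcard] at hx
  obtain ⟨ε₀, hε₀⟩ : L.Nonempty := by
    rw [← card_pos]
    by_contra h0
    rw [not_lt, Nat.le_zero] at h0
    rw [h0] at hx
    simp at hx
    linarith
  have hLsum : ∀ ε ∈ L, ∑ j, (intSign (ε j) : ℝ) * v j = x := by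
    intro ε hε
    rw [← (mem_filter.1 hε).2]
    exact sum_congr rfl fun j _ => by cases ε j <;> simp [intSign]
  let M : Matrix (Fin n ⊕ L) (Fin n) ℤ := fun r j =>
    Sum.elim (fun i => intSign (ω (key i j)))
      (fun ε : L => intSign (ε.1 j) - intSign (ε₀ j)) r
  obtain ⟨w, hw, j₀, hj₀⟩ := exists_int_solution M v hv (by
    rintro (i | ε)
    · rw [← hAv i]
      exact sum_congr rfl fun j _ => by simp [M, intSign_real, ent]
    · simp only [M, Sum.elim_inr, Int.cast_sub, sub_mul, sum_sub_distrib, hLsum _ ε.2,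
        hLsum _ hε₀, sub_self]) (Fact.out : p.Prime)
  let u : Fin n → ZMod p := fun j => (w j : ZMod p)
  refine mem_filter.2 ⟨mem_univ _, u, fun h => hj₀ (congrFun h j₀), fun i => ?_,
    ∑ j, u j * unitSign (ε₀ j), ?_⟩
  · have := congrArg (fun z : ℤ => (z : ZMod p)) (hw (Sum.inl i))
    simp only [M, Sum.elim_inl, Int.cast_sum, Int.cast_mul, intSign_mod, Int.cast_zero] at this
    rw [← this]
    exact sum_congr rfl fun j _ => mul_comm _ _
  · refine hx.trans (div_le_div_of_nonneg_right (Nat.cast_le.2 (card_le_card fun ε hε => ?_))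
      (by positivity))
    have := congrArg (fun z : ℤ => (z : ZMod p)) (hw (Sum.inr ⟨ε, hε⟩))
    simp only [M, Sum.elim_inr, Int.cast_sum, Int.cast_mul, Int.cast_sub, intSign_mod,
      Int.cast_zero, sub_mul, sum_sub_distrib, sub_eq_zero] at this
    refine mem_filter.2 ⟨mem_univ _, ?_⟩
    simp only [u, mul_comm _ (unitSign (_ : Bool))]
    exact this

theorem one_sub_pow_le (k : ℕ) :
    (1 - 1 / 16384 : ℝ) ^ k ≤ Real.exp (-((k : ℝ) / 16384)) := by
  have h := Real.one_sub_le_exp_neg (1 / 16384 : ℝ)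
  refine (pow_le_pow_left₀ (by norm_num) h k).trans (le_of_eq ?_)
  rw [← Real.exp_nat_mul]
  congr 1
  ring

theorem atom_upper_aux (M : ℕ) (hM : ∀ k : ℕ, M ≤ 2 * k → (1 - 1 / 16384 : ℝ) ^ k ≤ 1 / 32)
    {b : ℝ} (hb : 1 / 2 < b) :
    ∀ᶠ n : ℕ in atTop, prob n (HasKernelWithAtom n) ≤ b ^ n + (1 / 2 : ℝ) ^ n := by
  classical
  have hcast : Tendsto (fun n : ℕ => (n : ℝ)) atTop atTop := tendsto_natCast_atTop_atTop
  have hsqrt : Tendsto (fun n : ℕ => Real.sqrt n) atTop atTop :=
    Real.tendsto_sqrt_atTop.comp hcast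
  set δ := Real.log (2 * b) with hδ
  have hδ0 : 0 < δ := Real.log_pos (by linarith)
  filter_upwards [hsqrt.eventually_ge_atTop 10000,
    hsqrt.eventually_ge_atTop ((Real.log ((M : ℝ) + 1) + 8 * (M : ℝ)) / δ + 1),
    eventually_ge_atTop 1] with n hr1 hr2 hn
  set r := Real.sqrt n with hr
  have hn' : (1 : ℝ) ≤ n := by exact_mod_cast hn
  have hr0 : 0 ≤ r := Real.sqrt_nonneg _
  have hrr : r * r = n := Real.mul_self_sqrt (by positivity)
  set τ := Real.exp (- r / 1024) with hτ
  have hτ0 : 0 < τ := Real.exp_pos _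
  set E := Real.exp (r / 512) with hE
  have hE1 : 1 ≤ E := Real.one_le_exp (by positivity)
  have hτE : τ ^ 2 * E = 1 := by
    rw [hτ, hE, ← Real.exp_nat_mul, ← Real.exp_add]
    norm_num
    ring
  set N := ⌈2 * E⌉₊ + 64 with hN
  obtain ⟨p, hpp, hNp, hpN⟩ := Nat.exists_prime_lt_and_le_two_mul N (by omega)
  have : Fact p.Prime := ⟨hpp⟩
  have hp64 : 64 ≤ p := by omega
  have hpτ : 2 < (p : ℝ) * τ ^ 2 := by
    have h1 : 2 * E < p := by
      have := Nat.le_ceil (2 * E)
      have : (N : ℝ) < p := by exact_mod_cast hNp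
      rw [hN] at this; push_cast at this; linarith
    calc (2 : ℝ) = 2 * E * τ ^ 2 := by rw [mul_assoc, mul_comm E, hτE, mul_one]
      _ < _ := mul_lt_mul_of_pos_right h1 (by positivity)
  have hpE : (p : ℝ) ≤ 134 * E := by
    have : (p : ℝ) ≤ 2 * N := by exact_mod_cast hpN
    have h2 : (N : ℝ) ≤ 2 * E + 1 + 64 := by
      rw [hN]; push_cast
      linarith [Nat.ceil_lt_add_one (show (0 : ℝ) ≤ 2 * E by positivity)]
    linarith
  have hp0 : (0 : ℝ) < p := by exact_mod_cast hpp.pos
  have hlog2 := Real.log_two_lt_d9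
  have hlogp : Real.log p ≤ r / 512 + 6 := by
    have := Real.log_le_log hp0 hpE
    rw [Real.log_mul (by norm_num) (by positivity), hE, Real.log_exp] at this
    have h134 : Real.log 134 ≤ 8 * Real.log 2 := by
      rw [show (8 : ℝ) * Real.log 2 = Real.log (2 ^ 8) by rw [Real.log_pow]; norm_num]
      exact Real.log_le_log (by norm_num) (by norm_num)
    linarith
  set m := ⌈16384 * (r / 512 + 10)⌉₊ with hmdef
  have hm : (p : ℝ) * (1 - 1 / 16384) ^ m ≤ 1 / 32 := by
    have h1 : (1 - 1 / 16384 : ℝ) ^ m ≤ Real.exp (- (r / 512 + 10)) := by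
      refine (one_sub_pow_le m).trans (Real.exp_le_exp.2 ?_)
      have : 16384 * (r / 512 + 10) ≤ m := Nat.le_ceil _
      linarith
    refine (mul_le_mul_of_nonneg_left h1 hp0.le).trans ?_
    rw [← Real.exp_log hp0, ← Real.exp_add, ← Real.exp_log (show (0 : ℝ) < 1 / 32 by norm_num)]
    refine Real.exp_le_exp.2 ?_
    rw [one_div, Real.log_inv, show Real.log 32 = 5 * Real.log 2 by
      rw [show (32 : ℝ) = 2 ^ 5 by norm_num, Real.log_pow]; norm_num]
    linarith
  have hbound := modKernel_card_le n hp64 τ hτ0.le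
    (Real.exp_le_one_iff.2 (by linarith)) hpτ m M hm hM
  rw [prob_eq, div_le_iff₀ (by exact_mod_cast Fintype.card_pos)]
  calc ((univ.filter fun ω : Pos n → Bool => HasKernelWithAtom n (toMatrix ω)).card : ℝ)
      ≤ (modKernel n p τ).card := by
        refine Nat.cast_le.2 (card_le_card fun ω hω => ?_)
        obtain ⟨v, hv, hAv, x, hx⟩ := (mem_filter.1 hω).2
        exact atom_subset_modKernel hτ0 ω v hv (fun i => congrFun hAv i) x hx
    _ ≤ _ := hbound
    _ ≤ _ := by
        refine mul_le_mul_of_nonneg_right (add_le_add ?_ ?_) (Nat.cast_nonneg _)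
        · have e : b ^ n = Real.exp ((n : ℝ) * δ) * (1 / 2) ^ n := by
            rw [Real.exp_nat_mul, hδ, Real.exp_log (by linarith), ← mul_pow]
            congr 1; ring
          rw [e]
          refine mul_le_mul_of_nonneg_right ?_ (by positivity)
          push_cast
          rw [← Real.log_le_iff_le_exp (by positivity), Real.log_mul (by positivity) (by positivity),
            Real.log_mul (by positivity) (by positivity), Real.log_pow, Real.log_pow]
          have hlogn : Real.log ((n : ℝ) + 1) ≤ 2 * r := by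
            have h1 := Real.log_le_sub_one_of_pos (show (0 : ℝ) < Real.sqrt ((n : ℝ) + 1) by positivity)
            rw [Real.log_sqrt (by positivity)] at h1
            have h2 : Real.sqrt ((n : ℝ) + 1) ≤ r + 1 := by
              rw [Real.sqrt_le_left (by positivity)]
              nlinarith
            linarith
          have hM0 : (0 : ℝ) ≤ M := Nat.cast_nonneg M
          have hA : (Real.log ((M : ℝ) + 1) + 8 * (M : ℝ)) / δ + 1 ≤ r := hr2
          have hA' : Real.log ((M : ℝ) + 1) + 8 * (M : ℝ) ≤ δ * (r - 1) := by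
            rw [← div_le_iff₀' hδ0]; linarith
          have hlM : 0 ≤ Real.log ((M : ℝ) + 1) := Real.log_nonneg (by linarith)
          nlinarith [mul_le_mul_of_nonneg_left hlogn hM0, mul_le_mul_of_nonneg_left hlogp hM0,
            mul_le_mul_of_nonneg_right hA' hr0]
        · have hexp : 1 / (τ ^ 2) ^ (2 * m + 1) ≤ Real.exp ((n : ℝ) * (1 / 4)) := by
            have e : (τ ^ 2)⁻¹ = E := inv_eq_of_mul_eq_one_right hτE
            rw [one_div, ← inv_pow, e, hE, ← Real.exp_nat_mul]
            refine Real.exp_le_exp.2 ?_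
            have hmle : (m : ℝ) ≤ 16384 * (r / 512 + 10) + 1 :=
              (Nat.ceil_lt_add_one (by positivity)).le
            push_cast
            nlinarith [mul_le_mul_of_nonneg_right hmle hr0, mul_le_mul_of_nonneg_right hr1 hr0]
          rw [div_eq_mul_one_div]
          refine (mul_le_mul_of_nonneg_left hexp (by positivity)).trans ?_
          rw [Real.exp_nat_mul, ← mul_pow]
          refine pow_le_pow_left₀ (by positivity) ?_ n
          have h34 := Real.add_one_le_exp (-(1 / 4) : ℝ)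
          rw [Real.exp_neg] at h34
          have h43 : Real.exp (1 / 4) ≤ 4 / 3 := by
            have hpos := Real.exp_pos (1 / 4 : ℝ)
            have := mul_le_mul_of_nonneg_right h34 hpos.le
            rw [inv_mul_cancel₀ hpos.ne'] at this
            linarith
          linarith

theorem atom_upper {a : ℝ} (ha : 1 / 2 < a) :
    ∀ᶠ n : ℕ in atTop, prob n (HasKernelWithAtom n) ≤ a ^ n + (1 / 2 : ℝ) ^ n := by
  refine atom_upper_aux (2 * 65536) (fun k hk => ?_) ha
  have hk' : (65536 : ℝ) ≤ k := by exact_mod_cast (by omega : 65536 ≤ k)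
  refine (one_sub_pow_le k).trans ?_
  refine (Real.exp_le_exp.2 (show -((k : ℝ) / 16384) ≤ -4 by linarith)).trans ?_
  rw [Real.exp_neg, one_div]
  refine inv_anti₀ (by norm_num) ?_
  have := pow_le_pow_left₀ (by norm_num) Real.exp_one_gt_d9.le 4
  rw [← Real.exp_nat_mul] at this
  norm_num at this ⊢
  linarith

/-- A kernel vector with repeated absolute values or with a large atom. -/
def HasStructuredKernel (n : ℕ) (A : Matrix (Fin n) (Fin n) ℝ) : Prop :=
  HasKernelWithRepeats n A ∨ HasKernelWithAtom n A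

theorem structured_upper {a : ℝ} (ha : 1 / 2 < a) :
    ∀ᶠ n : ℕ in atTop, prob n (HasStructuredKernel n) ≤ a ^ n := by
  classical
  obtain ⟨b, hb1, hb2⟩ := exists_between ha
  have hpow : ∀ᶠ n : ℕ in atTop, b ^ n + (b ^ n + (1 / 2 : ℝ) ^ n) ≤ a ^ n := by
    have h : Tendsto (fun n : ℕ => (b / a) ^ n) atTop (nhds 0) :=
      tendsto_pow_atTop_nhds_zero_of_lt_one (by positivity)
        (by rw [div_lt_one (by linarith)]; exact hb2)
    filter_upwards [h.eventually_le_const (show (0 : ℝ) < 1 / 3 by norm_num)] with n hn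
    rw [div_pow, div_le_iff₀ (pow_pos (by linarith) n)] at hn
    have : (1 / 2 : ℝ) ^ n ≤ b ^ n := pow_le_pow_left₀ (by norm_num) hb1.le n
    linarith
  filter_upwards [repeats_upper hb1, atom_upper hb1, hpow] with n h1 h2 h3
  refine le_trans ?_ ((add_le_add h1 h2).trans h3)
  rw [prob_eq, prob_eq, prob_eq, ← add_div]
  refine div_le_div_of_nonneg_right ?_ (Nat.cast_nonneg _)
  rw [← Nat.cast_add, Nat.cast_le]
  refine le_trans (card_le_card fun ω hω => ?_) (card_union_le _ _)
  rcases (mem_filter.1 hω).2 with h | h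
  · exact mem_union_left _ (mem_filter.2 ⟨mem_univ _, h⟩)
  · exact mem_union_right _ (mem_filter.2 ⟨mem_univ _, h⟩)

theorem structured_lower :
    ∀ᶠ n : ℕ in atTop, (1 / 2 : ℝ) ^ n ≤ prob n (HasStructuredKernel n) := by
  classical
  filter_upwards [repeats_lower] with n hn
  refine hn.trans ?_
  rw [prob_eq, prob_eq]
  refine div_le_div_of_nonneg_right (Nat.cast_le.2 (card_le_card fun ω hω => ?_)) (Nat.cast_nonneg _)
  exact mem_filter.2 ⟨mem_univ _, Or.inl (mem_filter.1 hω).2⟩

theorem structured_rate :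
    Tendsto (fun n : ℕ => prob n (HasStructuredKernel n) ^ (1 / (n : ℝ))) atTop
      (nhds (1 / 2)) := by
  have hnn : ∀ n, 0 ≤ prob n (HasStructuredKernel n) := fun n => by unfold prob; positivity
  have hroot : ∀ (a : ℝ) (n : ℕ), 0 ≤ a → n ≠ 0 → (a ^ n) ^ (1 / (n : ℝ)) = a := fun a n ha hn => by
    rw [one_div, Real.pow_rpow_inv_natCast ha hn]
  refine tendsto_order.2 ⟨fun b hb => ?_, fun b hb => ?_⟩
  · filter_upwards [structured_lower, eventually_ne_atTop 0] with n hn hn0
    calc b < 1 / 2 := hb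
      _ = ((1 / 2 : ℝ) ^ n) ^ (1 / (n : ℝ)) := (hroot _ n (by norm_num) hn0).symm
      _ ≤ _ := Real.rpow_le_rpow (by positivity) hn (by positivity)
  · obtain ⟨a, ha1, ha2⟩ := exists_between hb
    filter_upwards [structured_upper ha1, eventually_ne_atTop 0] with n hn hn0
    calc _ ≤ (a ^ n) ^ (1 / (n : ℝ)) := Real.rpow_le_rpow (hnn n) hn (by positivity)
      _ = a := hroot _ n (by linarith) hn0
      _ < b := ha2

/-- Singularity at rate above `1/2` needs kernels with tiny atoms and distinct absolute values. -/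
theorem singular_reduction_structured {a : ℝ} (ha : 1 / 2 < a) :
    ∀ᶠ n : ℕ in atTop, prob n (fun A => A.det = 0) ≤ a ^ n
      + prob n (fun A => A.det = 0 ∧ ∀ v : Fin n → ℝ, v ≠ 0 → A.mulVec v = 0 →
          (Nat.card {j : Fin n // v j = 0} : ℝ) < 12 * (n : ℝ) / Real.log n ∧
          (n : ℝ) - 60 * (n : ℝ) / Real.log n < (Set.ncard (Set.range fun j => |v j|) : ℝ) ∧
          ∀ x : ℝ, (Nat.card {ε : Fin n → Bool // ∑ j, (if ε j then v j else - v j) = x} : ℝ) / 2 ^ n
            < Real.exp (- Real.sqrt n / 1024)) := by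
  classical
  filter_upwards [structured_upper ha] with n hn
  refine le_trans ?_ (add_le_add hn le_rfl)
  rw [prob_eq, prob_eq, prob_eq, ← add_div]
  refine div_le_div_of_nonneg_right ?_ (Nat.cast_nonneg _)
  rw [← Nat.cast_add, Nat.cast_le]
  refine le_trans (card_le_card fun ω hω => ?_) (card_union_le _ _)
  rw [mem_filter] at hω
  simp only [mem_union, mem_filter]
  by_cases h : HasStructuredKernel n (toMatrix ω)
  · exact Or.inl ⟨mem_univ _, h⟩
  · refine Or.inr ⟨mem_univ _, hω.2, fun v hv hAv => ⟨?_, ?_, fun x => ?_⟩⟩ <;> by_contra hc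
    · exact h (Or.inl ⟨v, hv, hAv, Or.inl (not_lt.1 hc)⟩)
    · exact h (Or.inl ⟨v, hv, hAv, Or.inr (not_lt.1 hc)⟩)
    · exact h (Or.inr ⟨v, hv, hAv, x, not_lt.1 hc⟩)

end Vale.Agent.P160
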