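import Vale.Agent.P160.Slice

/-! A bound of order `d ^ (-3/2)` for sums of signs with `d` distinct absolute values. -/

namespace Vale.Agent.P160

open Finset Nat

variable {ι : Type*} [Fintype ι] [DecidableEq ι]

/-- Number of orders of `ι` through an edge which leaves `B`. -/
def edgeWeight (B : Finset ι) : ℕ := (B.card)! * (Fintype.card ι - B.card - 1)!

omit [DecidableEq ι] in
theorem edgeWeight_out [DecidableEq ι] {B : Finset ι} (h : B ≠ univ) :
    Bᶜ.card * edgeWeight B = (B.card)! * (Fintype.card ι - B.card)! := by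
  have hlt : B.card < Fintype.card ι := (card_lt_iff_ne_univ B).2 h
  rw [card_compl, edgeWeight]
  obtain ⟨q, hq⟩ : ∃ q, Fintype.card ι - B.card = q + 1 := ⟨Fintype.card ι - B.card - 1, by omega⟩
  rw [hq, Nat.add_sub_cancel, Nat.factorial_succ]
  ring

/-- Edges along which the sum of `w` first reaches `c`. -/
noncomputable def crossing (w : ι → ℝ) (c : ℝ) : Finset (Finset ι × ι) :=
  univ.filter fun p => p.2 ∉ p.1 ∧ ∑ i ∈ p.1, w i < c ∧ c ≤ ∑ i ∈ insert p.2 p.1, w i

theorem crossing_weight (w : ι → ℝ) (hw : ∀ i, 0 < w i) (c : ℝ) (h0 : 0 < c)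
    (h1 : c ≤ ∑ i, w i) :
    ∑ p ∈ crossing w c, edgeWeight p.1 = (Fintype.card ι)! := by
  classical
  set G : Finset (Finset ι) := univ.filter fun B => ∑ i ∈ B, w i < c
  have hne : ∀ B ∈ G, B ≠ univ := fun B hB h => by
    subst h
    exact absurd (mem_filter.1 hB).2 (not_lt.2 h1)
  set E : Finset (Finset ι × ι) := univ.filter fun p => p.2 ∉ p.1 ∧ p.1 ∈ G
  set I : Finset (Finset ι × ι) := E.filter fun p => insert p.2 p.1 ∈ G
  have hout : ∑ p ∈ E, edgeWeight p.1
      = ∑ B ∈ G, (B.card)! * (Fintype.card ι - B.card)! := by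
    rw [sum_finset_product E G (fun B => Bᶜ) (fun p => by simp [E, and_comm])]
    refine sum_congr rfl fun B hB => ?_
    simp only [sum_const, smul_eq_mul, edgeWeight_out (hne B hB)]
  have hin : ∑ p ∈ I, edgeWeight p.1
      = ∑ B ∈ G.erase ∅, (B.card)! * (Fintype.card ι - B.card)! := by
    set I' : Finset (Finset ι × ι) := univ.filter fun p => p.1 ∈ G.erase ∅ ∧ p.2 ∈ p.1
    calc ∑ p ∈ I, edgeWeight p.1
        = ∑ p ∈ I', edgeWeight (p.1.erase p.2) := by
          refine sum_bij' (fun p _ => (insert p.2 p.1, p.2)) (fun p _ => (p.1.erase p.2, p.2))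
            ?_ ?_ ?_ ?_ ?_
          · intro p hp
            simp only [I, mem_filter] at hp
            simp [I', hp.2]
          · intro p hp
            simp only [I', mem_filter, mem_univ, true_and, mem_erase] at hp
            have hG : ∑ i ∈ p.1, w i < c := (mem_filter.1 hp.1.2).2
            have := Finset.sum_erase_add _ w hp.2
            simp only [I, E, mem_filter, mem_univ, true_and, Finset.insert_erase hp.2]
            refine ⟨⟨notMem_erase _ _, mem_filter.2 ⟨mem_univ _, ?_⟩⟩, hp.1.2⟩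
            linarith [hw p.2]
          · intro p hp
            simp only [I, E, mem_filter, mem_univ, true_and] at hp
            simp [erase_insert hp.1.1]
          · intro p hp
            simp only [I', mem_filter, mem_univ, true_and] at hp
            simp [Finset.insert_erase hp.2]
          · intro p hp
            simp only [I, E, mem_filter, mem_univ, true_and] at hp
            simp [erase_insert hp.1.1]
      _ = _ := by
          rw [sum_finset_product I' (G.erase ∅) (fun B => B) (fun p => by simp [I'])]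
          simp only []
          refine sum_congr rfl fun B hB => ?_
          obtain ⟨m, hm⟩ : ∃ m, B.card = m + 1 := ⟨B.card - 1, by
            have := card_pos.2 (nonempty_iff_ne_empty.2 (mem_erase.1 hB).1); omega⟩
          rw [sum_congr rfl (g := fun _ => m ! * (Fintype.card ι - (m + 1))!) fun x hx => by
            rw [edgeWeight, card_erase_of_mem hx, hm, Nat.add_sub_cancel, Nat.sub_sub]]
          rw [sum_const, smul_eq_mul, hm, Nat.factorial_succ]
          ring
  have hempty : (∅ : Finset ι) ∈ G := by simp [G, h0]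
  have hcross : crossing w c = E.filter fun p => ¬ insert p.2 p.1 ∈ G := by
    ext p; simp [crossing, E, G, not_lt, and_assoc]
  have hsplit := sum_filter_add_sum_filter_not E (fun p => insert p.2 p.1 ∈ G)
    (fun p => edgeWeight p.1)
  rw [← hcross, hin, hout, ← add_sum_erase _ _ hempty] at hsplit
  simp only [card_empty, Nat.factorial_zero, one_mul, Nat.sub_zero] at hsplit
  omega

/-- An equal-sum family of sets meets few of the orders. -/
theorem equalSum_weight (w : ι → ℝ) (hw : ∀ i, 0 < w i) (hinj : Function.Injective w)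
    (F : Finset (Finset ι)) (c : ℝ) (hF : ∀ S ∈ F, ∑ i ∈ S, w i = c)
    (hne : ∀ S ∈ F, S ≠ ∅ ∧ S ≠ univ) :
    ∑ S ∈ F, (S.card)! * (Fintype.card ι - S.card)! * min S.card (Fintype.card ι - S.card)
      ≤ 2 * (Fintype.card ι)! := by
  classical
  rcases F.eq_empty_or_nonempty with rfl | ⟨S₀, hS₀⟩
  · simp
  have h0 : 0 < c := hF S₀ hS₀ ▸
    sum_pos (fun i _ => hw i) (nonempty_iff_ne_empty.2 (hne S₀ hS₀).1)
  have h1 : c ≤ ∑ i, w i := hF S₀ hS₀ ▸
    sum_le_sum_of_subset_of_nonneg (subset_univ _) fun i _ _ => (hw i).le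
  set A : Finset (Finset ι × ι × ι) :=
    univ.filter fun p => p.1 ∈ F ∧ p.2.1 ∈ p.1 ∧ p.2.2 ∉ p.1 ∧ w p.2.1 < w p.2.2
  set B : Finset (Finset ι × ι × ι) :=
    univ.filter fun p => p.1 ∈ F ∧ p.2.1 ∈ p.1 ∧ p.2.2 ∉ p.1 ∧ w p.2.2 < w p.2.1
  have hA : ∑ p ∈ A, edgeWeight (p.1.erase p.2.1) ≤ ∑ q ∈ crossing w c, edgeWeight q.1 := by
    let ψ : Finset ι × ι × ι → Finset ι × ι := fun p => (p.1.erase p.2.1, p.2.2)
    have hinjψ : Set.InjOn ψ A := by
      rintro ⟨S, x, y⟩ hp ⟨S', x', y'⟩ hq h
      simp only [A, coe_filter, mem_univ, true_and, Set.mem_ofPred_eq] at hp hq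
      simp only [ψ, Prod.mk.injEq] at h
      obtain ⟨hB, rfl⟩ := h
      have e1 := Finset.sum_erase_add _ w hp.2.1
      have e2 := Finset.sum_erase_add _ w hq.2.1
      rw [hF _ hp.1] at e1
      rw [hF _ hq.1, ← hB] at e2
      obtain rfl : x = x' := hinj (by linarith)
      rw [← Finset.insert_erase hp.2.1, ← Finset.insert_erase hq.2.1, hB]
    calc _ = ∑ q ∈ A.image ψ, edgeWeight q.1 := by rw [sum_image hinjψ]
      _ ≤ _ := sum_le_sum_of_subset fun q hq => by
          obtain ⟨⟨S, x, y⟩, hp, rfl⟩ := mem_image.1 hq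
          simp only [A, mem_filter, mem_univ, true_and] at hp
          have e := Finset.sum_erase_add _ w hp.2.1
          rw [hF _ hp.1] at e
          have hy : y ∉ S.erase x := fun h => hp.2.2.1 (mem_of_mem_erase h)
          simp only [crossing, ψ, mem_filter, mem_univ, true_and, sum_insert hy]
          exact ⟨hy, by linarith [hw x], by linarith⟩
  have hB : ∑ p ∈ B, edgeWeight p.1 ≤ ∑ q ∈ crossing w c, edgeWeight q.1 := by
    let ψ : Finset ι × ι × ι → Finset ι × ι := fun p => (insert p.2.2 (p.1.erase p.2.1), p.2.1)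
    have hsum : ∀ p ∈ B, ∑ i ∈ (ψ p).1, w i = c - w p.2.1 + w p.2.2 ∧ p.2.1 ∉ (ψ p).1 ∧
        (ψ p).1.card = p.1.card := by
      rintro ⟨S, y, z⟩ hp
      simp only [B, mem_filter, mem_univ, true_and] at hp
      have e := Finset.sum_erase_add _ w hp.2.1
      rw [hF _ hp.1] at e
      have hz : z ∉ S.erase y := fun h => hp.2.2.1 (mem_of_mem_erase h)
      refine ⟨?_, ?_, ?_⟩
      · simp only [ψ, sum_insert hz]; linarith
      · simp only [ψ, mem_insert, not_or]
        exact ⟨fun h => hp.2.2.1 (h ▸ hp.2.1), notMem_erase _ _⟩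
      · simp only [ψ, card_insert_of_notMem hz, card_erase_add_one hp.2.1]
    have hinjψ : Set.InjOn ψ B := by
      rintro ⟨S, y, z⟩ hp ⟨S', y', z'⟩ hq h
      have e1 := (hsum _ hp).1
      have e2 := (hsum _ hq).1
      simp only [B, coe_filter, mem_univ, true_and, Set.mem_ofPred_eq] at hp hq
      simp only [ψ, Prod.mk.injEq] at h
      obtain ⟨hB', rfl⟩ := h
      simp only [ψ, hB'] at e1 e2
      obtain rfl : z = z' := hinj (by linarith)
      have hz : ∀ T : Finset ι, z ∉ T → z ∉ T.erase y := fun T h h' => h (mem_of_mem_erase h')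
      have := congrArg (fun T => T.erase z) hB'
      simp only [erase_insert (hz S hp.2.2.1), erase_insert (hz S' hq.2.2.1)] at this
      rw [← Finset.insert_erase hp.2.1, ← Finset.insert_erase hq.2.1, this]
    calc _ = ∑ q ∈ B.image ψ, edgeWeight q.1 := by
          rw [sum_image hinjψ]
          exact sum_congr rfl fun p hp => by rw [edgeWeight, edgeWeight, (hsum p hp).2.2]
      _ ≤ _ := sum_le_sum_of_subset fun q hq => by
          obtain ⟨p, hp, rfl⟩ := mem_image.1 hq
          obtain ⟨e, hy, -⟩ := hsum p hp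
          simp only [B, mem_filter, mem_univ, true_and] at hp
          simp only [crossing, mem_filter, mem_univ, true_and]
          rw [show (ψ p).2 = p.2.1 from rfl, sum_insert hy, e]
          exact ⟨hy, by linarith [hp.2.2.2], by linarith [hw p.2.2]⟩
  rw [crossing_weight w hw c h0 h1] at hA hB
  set d := Fintype.card ι
  let m : Finset ι → ℕ := fun S => min ((S.card - 1)! * (d - S.card)!) (edgeWeight S)
  have hkey : ∑ S ∈ F, (S.card)! * (d - S.card)! * min S.card (d - S.card)
      = ∑ S ∈ F, ∑ _xy ∈ S ×ˢ Sᶜ, m S := by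
    refine sum_congr rfl fun S hS => ?_
    obtain ⟨k, hk⟩ : ∃ k, S.card = k + 1 := ⟨S.card - 1, by
      have := card_pos.2 (nonempty_iff_ne_empty.2 (hne S hS).1); omega⟩
    have := (card_lt_iff_ne_univ S).2 (hne S hS).2
    obtain ⟨q, hq⟩ : ∃ q, d - S.card = q + 1 := ⟨d - S.card - 1, by omega⟩
    rw [sum_const, card_product, card_compl, smul_eq_mul]
    simp only [m, edgeWeight]
    rw [show Fintype.card ι - S.card = q + 1 from hq, hk, Nat.add_sub_cancel, Nat.add_sub_cancel,
      Nat.factorial_succ, Nat.factorial_succ]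
    rw [← Nat.mul_min_mul_left, ← Nat.mul_min_mul_left, min_comm]
    congr 1 <;> ring
  rw [hkey, ← sum_finset_product (univ.filter fun p : Finset ι × ι × ι => p.1 ∈ F ∧ p.2 ∈ p.1 ×ˢ p.1ᶜ)
    F (fun S => S ×ˢ Sᶜ) (fun p => by simp) (f := fun p => m p.1)]
  have hun : (univ.filter fun p : Finset ι × ι × ι => p.1 ∈ F ∧ p.2 ∈ p.1 ×ˢ p.1ᶜ) = A ∪ B := by
    ext ⟨S, x, y⟩
    simp only [A, B, mem_union, mem_filter, mem_univ, true_and, mem_product, mem_compl]
    constructor
    · rintro ⟨hS, hx, hy⟩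
      rcases lt_trichotomy (w x) (w y) with h | h | h
      · exact Or.inl ⟨hS, hx, hy, h⟩
      · exact absurd (hinj h ▸ hx) hy
      · exact Or.inr ⟨hS, hx, hy, h⟩
    · rintro (⟨hS, hx, hy, -⟩ | ⟨hS, hx, hy, -⟩) <;> exact ⟨hS, hx, hy⟩
  rw [hun]
  refine le_trans (le_trans (Nat.le_add_right _ (∑ p ∈ A ∩ B, m p.1))
    (le_of_eq (sum_union_inter (f := fun p : Finset ι × ι × ι => m p.1)))) ?_
  have h1' : ∑ p ∈ A, m p.1 ≤ ∑ p ∈ A, edgeWeight (p.1.erase p.2.1) := by
    refine sum_le_sum fun p hp => ?_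
    simp only [A, mem_filter, mem_univ, true_and] at hp
    have hcard := card_pos.2 ⟨_, hp.2.1⟩
    refine le_trans (min_le_left _ _) (le_of_eq ?_)
    rw [edgeWeight, card_erase_of_mem hp.2.1, show d - (p.1.card - 1) - 1 = d - p.1.card by omega]
  have h2' : ∑ p ∈ B, m p.1 ≤ ∑ p ∈ B, edgeWeight p.1 := sum_le_sum fun p _ => min_le_right _ _
  omega

omit [DecidableEq ι] in
/-- An equal-sum family for distinct positive weights. -/
theorem equalSum_card [DecidableEq ι] (w : ι → ℝ) (hw : ∀ i, 0 < w i) (hinj : Function.Injective w)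
    (F : Finset (Finset ι)) (c : ℝ) (hF : ∀ S ∈ F, ∑ i ∈ S, w i = c) :
    F.card * (Fintype.card ι + 1)
      ≤ 4 * (Fintype.card ι + 1).choose ((Fintype.card ι + 1) / 2) + 2 * (Fintype.card ι + 1) := by
  classical
  set d := Fintype.card ι
  set M := (d + 1).choose ((d + 1) / 2)
  set F' := F.filter fun S => S ≠ ∅ ∧ S ≠ univ
  have hrest : F.card ≤ F'.card + 2 := by
    calc F.card = F'.card + (F.filter fun S => ¬(S ≠ ∅ ∧ S ≠ univ)).card :=
          (card_filter_add_card_filter_not _).symm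
      _ ≤ F'.card + ({∅, univ} : Finset (Finset ι)).card := by
          refine Nat.add_le_add_left (card_le_card fun S hS => ?_) _
          simp only [mem_filter, ne_eq] at hS
          simp only [mem_insert, mem_singleton]
          tauto
      _ ≤ _ := Nat.add_le_add_left card_le_two _
  have h2 := equalSum_weight w hw hinj F' c (fun S hS => hF S (mem_filter.1 hS).1)
    (fun S hS => (mem_filter.1 hS).2)
  have h3 : ∀ S ∈ F', d ! * (d + 1)
      ≤ 2 * M * ((S.card)! * (d - S.card)! * min S.card (d - S.card)) := by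
    intro S hS
    have hk : 1 ≤ S.card := card_pos.2 (nonempty_iff_ne_empty.2 (mem_filter.1 hS).2.1)
    have hk' : S.card < d := (card_lt_iff_ne_univ S).2 (mem_filter.1 hS).2.2
    have hs1 : (d + 1) * d.choose S.card ≤ M * (2 * S.card) := by
      rw [Nat.add_one_mul_choose_eq]
      exact Nat.mul_le_mul (Nat.choose_le_middle _ _) (by omega)
    have hs2 : (d + 1) * d.choose S.card ≤ M * (2 * (d - S.card)) := by
      rw [← Nat.choose_symm hk'.le, Nat.add_one_mul_choose_eq]
      exact Nat.mul_le_mul (Nat.choose_le_middle _ _) (by omega)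
    have hmin : (d + 1) * d.choose S.card ≤ M * (2 * min S.card (d - S.card)) := by
      rcases le_total S.card (d - S.card) with h | h
      · rw [min_eq_left h]; exact hs1
      · rw [min_eq_right h]; exact hs2
    calc d ! * (d + 1) = ((d + 1) * d.choose S.card) * ((S.card)! * (d - S.card)!) := by
          rw [← Nat.choose_mul_factorial_mul_factorial hk'.le]; ring
      _ ≤ (M * (2 * min S.card (d - S.card))) * ((S.card)! * (d - S.card)!) :=
          Nat.mul_le_mul_right _ hmin
      _ = _ := by ring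
  have h4 : F'.card * (d ! * (d + 1)) ≤ 2 * M * (2 * d !) := by
    rw [← smul_eq_mul, ← sum_const]
    refine (sum_le_sum h3).trans ?_
    rw [← mul_sum]
    exact Nat.mul_le_mul_left _ h2
  have h5 : F'.card * (d + 1) ≤ 4 * M := by
    refine Nat.le_of_mul_le_mul_left ?_ (Nat.factorial_pos d)
    calc d ! * (F'.card * (d + 1)) = F'.card * (d ! * (d + 1)) := by ring
      _ ≤ 2 * M * (2 * d !) := h4
      _ = d ! * (4 * M) := by ring
  nlinarith

/-- Signs with distinct absolute coefficients: a fixed value is rare. -/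
theorem distinct_sum_card (c : ι → ℝ) (hc : ∀ i, c i ≠ 0) (hinj : Function.Injective fun i => |c i|)
    (𝒜 : Finset (ι → Bool))
    (h : ∀ x ∈ 𝒜, ∀ y ∈ 𝒜, ∑ i, c i * bitSign (x i) = ∑ i, c i * bitSign (y i)) :
    ((𝒜.card : ℝ) / 2 ^ Fintype.card ι) ^ 2 * (Fintype.card ι : ℝ) ^ 3 ≤ 100 := by
  classical
  set d := Fintype.card ι
  let ψ : (ι → Bool) → Finset ι := fun x => univ.filter fun i => (x i = true ↔ 0 < c i)
  have hinjψ : Function.Injective ψ := by
    intro x y hxy
    funext i
    have := Finset.ext_iff.1 hxy i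
    simp only [ψ, mem_filter, mem_univ, true_and] at this
    by_cases h0 : 0 < c i <;> simp only [h0, iff_true, iff_false] at this <;>
      revert this <;> cases x i <;> cases y i <;> simp
  have hval : ∀ z : ι → Bool,
      ∑ i, c i * bitSign (z i) = 2 * ∑ i ∈ ψ z, |c i| - ∑ i, |c i| := by
    intro z
    rw [mul_sum, ← sum_ite_mem_eq (ψ z) (fun i => 2 * |c i|), ← sum_sub_distrib]
    refine sum_congr rfl fun i _ => ?_
    rcases lt_or_gt_of_ne (hc i) with h0 | h0 <;>
      cases hz : z i <;> simp [ψ, bitSign, hz, h0, h0.not_gt, abs_of_neg, abs_of_pos] <;> ring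
  rcases 𝒜.eq_empty_or_nonempty with rfl | ⟨x₀, hx₀⟩
  · simp
  have hb := equalSum_card (fun i => |c i|) (fun i => abs_pos.2 (hc i)) hinj (𝒜.image ψ)
    (∑ i ∈ ψ x₀, |c i|) (by
      intro S hS
      obtain ⟨x, hx, rfl⟩ := mem_image.1 hS
      have := h x hx x₀ hx₀
      rw [hval, hval] at this
      linarith)
  rw [card_image_of_injective _ hinjψ] at hb
  have hb' : (𝒜.card : ℝ) * ((d : ℝ) + 1)
      ≤ 4 * ((d + 1).choose ((d + 1) / 2) : ℝ) + 2 * ((d : ℝ) + 1) := by exact_mod_cast hb
  set p : ℝ := (𝒜.card : ℝ) / 2 ^ d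
  set a : ℝ := atom (d + 1)
  set e : ℝ := 2 / 2 ^ d
  have hp : p ≤ 8 * a / ((d : ℝ) + 1) + e := by
    simp only [p, e, a, atom, pow_succ]
    have hd1 : (0 : ℝ) < (d : ℝ) + 1 := by positivity
    rw [div_add_div _ _ hd1.ne' (by positivity), div_le_div_iff₀ (by positivity) (by positivity)]
    have h2 : (0 : ℝ) < 2 ^ d := by positivity
    field_simp
    nlinarith
  have ha : a ^ 2 * ((d : ℝ) + 2) ≤ 1 := by
    have := atom_sq_le (d + 1); push_cast at this; simpa [a, add_assoc, one_add_one_eq_two] using this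
  have hx : (8 * a / ((d : ℝ) + 1)) ^ 2 * (d : ℝ) ^ 3 ≤ 64 := by
    rw [div_pow, div_mul_eq_mul_div, div_le_iff₀ (by positivity)]
    have hd0 : (0 : ℝ) ≤ d := Nat.cast_nonneg d
    have hcube : (d : ℝ) ^ 3 ≤ ((d : ℝ) + 1) ^ 2 * ((d : ℝ) + 2) := by nlinarith
    nlinarith [mul_le_mul_of_nonneg_left hcube (sq_nonneg a),
      mul_le_mul_of_nonneg_left ha (sq_nonneg ((d : ℝ) + 1))]
  have he : e ^ 2 * (d : ℝ) ^ 3 ≤ 4 := by
    have hn : ∀ q : ℕ, q ^ 3 ≤ 4 ^ q := by
      intro q
      induction q with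
      | zero => simp
      | succ q ih =>
        rcases Nat.lt_or_ge q 4 with h4 | h4
        · interval_cases q <;> norm_num
        · calc (q + 1) ^ 3 ≤ 4 * q ^ 3 := by nlinarith [Nat.mul_le_mul h4 h4]
            _ ≤ 4 * 4 ^ q := Nat.mul_le_mul_left _ ih
            _ = 4 ^ (q + 1) := by rw [pow_succ]; ring
    have hn' : (d : ℝ) ^ 3 ≤ 4 ^ d := by exact_mod_cast hn d
    simp only [e]
    rw [div_pow, ← pow_mul, mul_comm d 2, pow_mul, div_mul_eq_mul_div, div_le_iff₀ (by positivity)]
    norm_num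
    linarith
  have hp0 : 0 ≤ p := by positivity
  have hd3 : (0 : ℝ) ≤ (d : ℝ) ^ 3 := by positivity
  calc p ^ 2 * (d : ℝ) ^ 3
      ≤ (8 * a / ((d : ℝ) + 1) + e) ^ 2 * (d : ℝ) ^ 3 := by gcongr
    _ ≤ (5 / 4 * (8 * a / ((d : ℝ) + 1)) ^ 2 + 5 * e ^ 2) * (d : ℝ) ^ 3 := by
        refine mul_le_mul_of_nonneg_right ?_ hd3
        nlinarith [sq_nonneg (8 * a / ((d : ℝ) + 1) - 4 * e)]
    _ ≤ 100 := by nlinarith

end Vale.Agent.P160
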