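import Vale.Agent.P160.Slice

/-! Kernel vectors with prescribed support: exposure of a symmetric sign matrix. -/

namespace Vale.Agent.P160

open Finset

/-- Positions on and above the diagonal. -/
abbrev Pos (n : ℕ) := {p : Fin n × Fin n // p.1 ≤ p.2}

variable {n : ℕ}

/-- The position of an entry. -/
def key (i j : Fin n) : Pos n :=
  if h : i ≤ j then ⟨(i, j), h⟩ else ⟨(j, i), le_of_lt (not_le.1 h)⟩

theorem key_eq_iff (i j a b : Fin n) :
    key i j = key a b ↔ (i = a ∧ j = b) ∨ (i = b ∧ j = a) := by
  unfold key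
  split_ifs with h1 h2 h2 <;> simp only [Subtype.ext_iff, Prod.ext_iff, Fin.ext_iff] at * <;>
    omega

theorem key_comm (i j : Fin n) : key i j = key j i := (key_eq_iff i j j i).2 (Or.inr ⟨rfl, rfl⟩)

/-- An entry of the matrix of a point of the cube. -/
noncomputable def ent (ω : Pos n → Bool) (i j : Fin n) : ℝ := bitSign (ω (key i j))

open Classical in
/-- A vector with full support on `S`, orthogonal to the rows in `R` when possible. -/
noncomputable def fullVec (S R : Finset (Fin n)) (M : Fin n → Fin n → ℝ) : Fin n → ℝ :=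
  if h : ∃ u : Fin n → ℝ, (∀ j ∈ S, u j ≠ 0) ∧ ∀ i ∈ R, ∑ j ∈ S, M i j * u j = 0 then h.choose
  else fun _ => 1

theorem fullVec_ne (S R : Finset (Fin n)) (M : Fin n → Fin n → ℝ) :
    ∀ j ∈ S, fullVec S R M j ≠ 0 := by
  unfold fullVec
  split_ifs with h
  · exact h.choose_spec.1
  · intros; norm_num

theorem fullVec_orth {S R : Finset (Fin n)} {M : Fin n → Fin n → ℝ}
    (h : ∃ u : Fin n → ℝ, (∀ j ∈ S, u j ≠ 0) ∧ ∀ i ∈ R, ∑ j ∈ S, M i j * u j = 0) :
    ∀ i ∈ R, ∑ j ∈ S, M i j * fullVec S R M j = 0 := by
  unfold fullVec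
  rw [dif_pos h]
  exact h.choose_spec.2

/-- The exposed rows. -/
noncomputable def exposed (S R : Finset (Fin n)) (ω : Pos n → Bool) : Fin n → Fin n → ℝ :=
  fun i j => if i ∈ R ∧ j ∈ S then ent ω i j else 0

/-- The chosen coefficient vector. -/
noncomputable def coeff (S R : Finset (Fin n)) (ω : Pos n → Bool) : Fin n → ℝ :=
  fullVec S R (exposed S R ω)

open Classical in
/-- The points satisfying the equations in `C`. -/
noncomputable def eqs (S R C : Finset (Fin n)) : Finset (Pos n → Bool) :=
  univ.filter fun ω => ∀ i ∈ C, ∑ j ∈ S, ent ω i j * coeff S R ω j = 0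

/-- Columns giving fresh entries to the row `i`. -/
def freshCols (S R : Finset (Fin n)) (i : Fin n) : Finset (Fin n) :=
  S.filter fun j => i ∉ S ∨ (j ∉ R ∧ i ≤ j)

theorem eqs_card (S R C : Finset (Fin n)) (hC : ∀ i ∈ C, i ∉ R) :
    ((eqs S R C).card : ℝ)
      ≤ (∏ i ∈ C, atom (freshCols S R i).card) * (Fintype.card (Pos n → Bool)) := by
  classical
  induction C using Finset.induction_on_max with
  | empty => simp [eqs]
  | insert a C hlt ih =>
    have ha : a ∉ C := fun h => lt_irrefl _ (hlt a h)
    have haR : a ∉ R := hC a (mem_insert_self a C)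
    rw [prod_insert ha, mul_assoc]
    refine le_trans ?_ (mul_le_mul_of_nonneg_left (ih fun i hi => hC i (mem_insert_of_mem hi))
      (atom_nonneg _))
    set J := freshCols S R a with hJdef
    have hJS : J ⊆ S := filter_subset _ _
    have hinj : Set.InjOn (key a) J := by
      intro x _ y _ h
      rcases (key_eq_iff a x a y).1 h with ⟨_, h'⟩ | ⟨h1, h2⟩
      · exact h'
      · rw [h2, ← h1]
    rw [← card_image_of_injOn hinj]
    have hexp : ∀ x y : Pos n → Bool, (∀ u, u ∉ J.image (key a) → y u = x u) →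
        coeff S R y = coeff S R x := by
      intro x y hxy
      unfold coeff
      congr 1
      funext r s
      unfold exposed
      split_ifs with h
      · unfold ent
        rw [hxy]
        intro hm
        obtain ⟨j, hj, e⟩ := mem_image.1 hm
        simp only [hJdef, freshCols, mem_filter] at hj
        rcases (key_eq_iff a j r s).1 e with ⟨h1, _⟩ | ⟨h1, h2⟩
        · exact haR (h1 ▸ h.1)
        · subst h1 h2
          rcases hj.2 with h3 | h3
          · exact h3 h.2
          · exact h3.1 h.1
      · rfl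
    have hold : ∀ x y : Pos n → Bool, (∀ u, u ∉ J.image (key a) → y u = x u) →
        ∀ i ∈ C, ∀ j ∈ S, ent y i j = ent x i j := by
      intro x y hxy i hi j hjS
      unfold ent
      rw [hxy]
      intro hm
      obtain ⟨c, hc, e⟩ := mem_image.1 hm
      simp only [hJdef, freshCols, mem_filter] at hc
      rcases (key_eq_iff a c i j).1 e with ⟨h1, _⟩ | ⟨h1, h2⟩
      · exact ha (h1 ▸ hi)
      · subst h1 h2
        rcases hc.2 with h3 | h3
        · exact h3 hjS
        · exact absurd (hlt _ hi) (not_lt.2 h3.2)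
    let oth : Pos n → Fin n := fun u => if u.1.1 = a then u.1.2 else u.1.1
    have hoth : ∀ j, oth (key a j) = j := by
      intro j
      unfold oth key
      split_ifs <;> simp_all
    refine slice_card (J.image (key a)) _ _ ?_ ?_ (fun x u => coeff S R x (oth u)) ?_ ?_
    · intro x hx
      simp only [eqs, mem_filter, mem_univ, true_and] at hx ⊢
      exact fun i hi => hx i (mem_insert_of_mem hi)
    · intro x hx y hxy
      simp only [eqs, mem_filter, mem_univ, true_and] at hx ⊢
      intro i hi
      rw [hexp x y hxy, ← hx i hi]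
      exact sum_congr rfl fun j hj => by rw [hold x y hxy i hi j hj]
    · intro x _ u hu
      obtain ⟨j, hj, rfl⟩ := mem_image.1 hu
      simp only [hoth]
      exact fullVec_ne S R _ j (hJS hj)
    · intro x hx y hy hxy
      simp only [eqs, mem_filter, mem_univ, true_and] at hx hy
      have ex := hx a (mem_insert_self a C)
      have ey := hy a (mem_insert_self a C)
      rw [hexp x y hxy] at ey
      rw [← sum_sdiff hJS] at ex ey
      have hrest : ∑ j ∈ S \ J, ent y a j * coeff S R x j
          = ∑ j ∈ S \ J, ent x a j * coeff S R x j := by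
        refine sum_congr rfl fun j hj => ?_
        unfold ent
        rw [hxy]
        intro hm
        obtain ⟨c, hc, e⟩ := mem_image.1 hm
        rcases (key_eq_iff a c a j).1 e with ⟨_, h1⟩ | ⟨h1, h2⟩
        · exact (mem_sdiff.1 hj).2 (h1 ▸ hc)
        · exact (mem_sdiff.1 hj).2 (h1 ▸ h2 ▸ hc)
      have hsum : ∀ z : Pos n → Bool,
          ∑ u ∈ J.image (key a), coeff S R x (oth u) * bitSign (z u)
            = ∑ j ∈ J, ent z a j * coeff S R x j := by
        intro z
        rw [sum_image hinj]
        exact sum_congr rfl fun j _ => by rw [hoth, ent, mul_comm]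
      rw [hsum, hsum]
      linarith

/-- Every kernel vector is caught by one of the events `eqs S R Rᶜ`. -/
theorem exists_eqs (ω : Pos n → Bool) (v : Fin n → ℝ) (hv : v ≠ 0)
    (hAv : ∀ i, ∑ j, ent ω i j * v j = 0) :
    ∃ S R : Finset (Fin n), S = univ.filter (fun j => v j ≠ 0) ∧ 1 ≤ S.card ∧
      R.card = S.card - 1 ∧ ω ∈ eqs S R Rᶜ := by
  classical
  set S := univ.filter (fun j => v j ≠ 0) with hSdef
  have hS : 1 ≤ S.card := by
    obtain ⟨j, hj⟩ := Function.ne_iff.1 hv
    exact card_pos.2 ⟨j, by simpa [hSdef] using hj⟩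
  have hAS : ∀ i, ∑ j ∈ S, ent ω i j * v j = 0 := by
    intro i
    rw [← hAv i]
    refine sum_subset (subset_univ _) fun j _ hj => ?_
    simp only [hSdef, mem_filter, mem_univ, true_and, not_not] at hj
    rw [hj, mul_zero]
  let b : Fin n → (S → ℝ) := fun i j => ent ω i j
  obtain ⟨κ, f, hf, hspan, hli⟩ := exists_linearIndependent' ℝ b
  have : Fintype κ := Fintype.ofInjective f hf
  let ev : (S → ℝ) →ₗ[ℝ] ℝ :=
    { toFun := fun u => ∑ j : S, u j * v j
      map_add' := fun u w => by simp [add_mul, sum_add_distrib]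
      map_smul' := fun c u => by simp [mul_sum, mul_assoc] }
  have hne : LinearMap.ker ev ≠ ⊤ := by
    intro htop
    obtain ⟨j0, hj0⟩ := card_pos.1 hS
    have hmem : Pi.single (⟨j0, hj0⟩ : S) (1 : ℝ) ∈ LinearMap.ker ev := htop ▸ Submodule.mem_top
    rw [LinearMap.mem_ker] at hmem
    have : ev (Pi.single (⟨j0, hj0⟩ : S) (1 : ℝ)) = v j0 := by
      simp [ev, Pi.single_apply, Finset.univ_eq_attach]
    rw [this] at hmem
    simp [hSdef, hmem] at hj0
  have hle : Submodule.span ℝ (Set.range b) ≤ LinearMap.ker ev := by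
    rw [Submodule.span_le]
    rintro _ ⟨i, rfl⟩
    simp only [SetLike.mem_coe, LinearMap.mem_ker]
    exact (Finset.sum_coe_sort S (fun j => ent ω i j * v j)).trans (hAS i)
  have hdim : Module.finrank ℝ (Submodule.span ℝ (Set.range b)) < S.card := by
    refine lt_of_le_of_lt (Submodule.finrank_mono hle) ?_
    have := Submodule.finrank_lt hne
    simpa using this
  have hκ : Fintype.card κ < S.card := by
    rw [← hspan, finrank_span_eq_card hli] at hdim
    exact hdim
  let T : Finset (Fin n) := univ.image f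
  obtain ⟨R, hTR, hRcard⟩ := Finset.exists_superset_card_eq (s := T) (n := S.card - 1)
    (by have := card_image_le (s := (univ : Finset κ)) (f := f); simp [T] at *; omega)
    (by have := S.card_le_univ; simp at this ⊢; omega)
  refine ⟨S, R, rfl, hS, hRcard, ?_⟩
  have hcong : ∀ (u : Fin n → ℝ), ∀ i ∈ R,
      ∑ j ∈ S, exposed S R ω i j * u j = ∑ j ∈ S, ent ω i j * u j := by
    intro u i hi
    refine sum_congr rfl fun j hj => ?_
    simp [exposed, hi, hj]
  have hex : ∃ u : Fin n → ℝ, (∀ j ∈ S, u j ≠ 0) ∧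
      ∀ i ∈ R, ∑ j ∈ S, exposed S R ω i j * u j = 0 :=
    ⟨v, fun j hj => (mem_filter.1 hj).2, fun i hi => by rw [hcong v i hi]; exact hAS i⟩
  let ew : (S → ℝ) →ₗ[ℝ] ℝ :=
    { toFun := fun u => ∑ j : S, u j * coeff S R ω j
      map_add' := fun u w => by simp [add_mul, sum_add_distrib]
      map_smul' := fun c u => by simp [mul_sum, mul_assoc] }
  have hwle : Submodule.span ℝ (Set.range b) ≤ LinearMap.ker ew := by
    rw [← hspan, Submodule.span_le]
    rintro _ ⟨t, rfl⟩
    simp only [SetLike.mem_coe, LinearMap.mem_ker]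
    have ht : f t ∈ R := hTR (mem_image.2 ⟨t, mem_univ _, rfl⟩)
    refine (Finset.sum_coe_sort S (fun j => ent ω (f t) j * coeff S R ω j)).trans ?_
    rw [← hcong _ _ ht]
    exact fullVec_orth hex _ ht
  simp only [eqs, mem_filter, mem_univ, true_and]
  intro i _
  have := hwle (Submodule.subset_span ⟨i, rfl⟩)
  rw [LinearMap.mem_ker] at this
  exact (Finset.sum_coe_sort S (fun j => ent ω i j * coeff S R ω j)).symm.trans this

theorem prod_atom_le (S R : Finset (Fin n)) (hS : 1 ≤ S.card) :
    ∏ i ∈ Rᶜ, atom (freshCols S R i).card ≤ (1 / 2) ^ Rᶜ.card ∧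
    ∀ T : ℕ, 1 ≤ T → T ≤ S.card →
      ∏ i ∈ Rᶜ, atom (freshCols S R i).card ≤ (1 / Real.sqrt T) ^ (Rᶜ.card - T) := by
  classical
  have hone : ∀ i ∈ Rᶜ, 1 ≤ (freshCols S R i).card := by
    intro i hi
    rw [mem_compl] at hi
    by_cases hiS : i ∈ S
    · exact card_pos.2 ⟨i, mem_filter.2 ⟨hiS, Or.inr ⟨hi, le_rfl⟩⟩⟩
    · obtain ⟨j, hj⟩ := card_pos.1 hS
      exact card_pos.2 ⟨j, mem_filter.2 ⟨hj, Or.inl hiS⟩⟩
  refine ⟨?_, fun T hT hTS => ?_⟩
  · calc ∏ i ∈ Rᶜ, atom (freshCols S R i).card ≤ ∏ _i ∈ Rᶜ, (1 / 2 : ℝ) :=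
          prod_le_prod (fun _ _ => atom_nonneg _) fun i hi => atom_le_half (hone i hi)
      _ = _ := by simp
  · set small := Rᶜ.filter (fun i => (freshCols S R i).card < T)
    have hsmallS : ∀ i ∈ small, i ∈ S := by
      intro i hi
      by_contra hiS
      have : freshCols S R i = S := filter_eq_self.2 fun j _ => Or.inl hiS
      have hlt := (mem_filter.1 hi).2
      rw [this] at hlt
      omega
    have hsmall : small.card ≤ T := by
      rw [← card_range T]
      refine card_le_card_of_injOn (fun i => (freshCols S R i).card)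
        (fun i hi => by simpa using (mem_filter.1 hi).2) ?_
      have hmono : ∀ i ∈ small, ∀ j ∈ small, i < j →
          (freshCols S R j).card < (freshCols S R i).card := by
        intro i hi j hj hij
        have hiR : i ∉ R := mem_compl.1 (mem_filter.1 hi).1
        refine card_lt_card ((Finset.ssubset_iff_of_subset ?_).2 ⟨i, ?_, ?_⟩)
        · intro x hx
          rw [freshCols, mem_filter] at hx ⊢
          rcases hx.2 with h | h
          · exact absurd (hsmallS j hj) h
          · exact ⟨hx.1, Or.inr ⟨h.1, hij.le.trans h.2⟩⟩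
        · exact mem_filter.2 ⟨hsmallS i hi, Or.inr ⟨hiR, le_rfl⟩⟩
        · intro hx
          rw [freshCols, mem_filter] at hx
          rcases hx.2 with h | h
          · exact h (hsmallS j hj)
          · exact absurd h.2 (not_le.2 hij)
      intro i hi j hj e
      rcases lt_trichotomy i j with h | h | h
      · exact absurd e (hmono i hi j hj h).ne'
      · exact h
      · exact absurd e (hmono j hj i hi h).ne
    have hTpos : (0 : ℝ) < T := by exact_mod_cast hT
    have hbig : ∀ i ∈ Rᶜ \ small, atom (freshCols S R i).card ≤ 1 / Real.sqrt T := by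
      intro i hi
      simp only [small, mem_sdiff, mem_filter, not_and, not_lt] at hi
      have hm : (T : ℝ) ≤ (freshCols S R i).card := by exact_mod_cast hi.2 hi.1
      have h1 := atom_sq_le (freshCols S R i).card
      rw [le_div_iff₀ (Real.sqrt_pos.2 hTpos), ← pow_le_one_iff_of_nonneg
        (mul_nonneg (atom_nonneg _) (Real.sqrt_nonneg _)) (two_ne_zero), mul_pow,
        Real.sq_sqrt hTpos.le]
      nlinarith [sq_nonneg (atom (freshCols S R i).card)]
    rw [← prod_sdiff (filter_subset (fun i => (freshCols S R i).card < T) Rᶜ)]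
    have hle1 : (1 : ℝ) / Real.sqrt T ≤ 1 := by
      rw [div_le_one (Real.sqrt_pos.2 hTpos)]
      exact Real.one_le_sqrt.2 (by exact_mod_cast hT)
    calc (∏ i ∈ Rᶜ \ small, atom (freshCols S R i).card) * ∏ i ∈ small, atom (freshCols S R i).card
        ≤ (∏ _i ∈ Rᶜ \ small, (1 / Real.sqrt T)) * 1 := by
          refine mul_le_mul (prod_le_prod (fun _ _ => atom_nonneg _) hbig) ?_
            (prod_nonneg fun _ _ => atom_nonneg _) (prod_nonneg fun _ _ => by positivity)
          exact prod_le_one (fun _ _ => atom_nonneg _) fun i hi =>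
            (atom_le_half (hone i (mem_filter.1 hi).1)).trans (by norm_num)
      _ ≤ (1 / Real.sqrt T) ^ (Rᶜ.card - T) := by
          rw [mul_one, prod_const]
          refine pow_le_pow_of_le_one (by positivity) hle1 ?_
          have h2 : (Rᶜ.filter fun i => (freshCols S R i).card < T).card ≤ T := hsmall
          rw [card_sdiff_of_subset (filter_subset _ _)]
          change Rᶜ.card - T ≤ Rᶜ.card - (Rᶜ.filter fun i => (freshCols S R i).card < T).card
          omega

end Vale.Agent.P160
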