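import Vale.Agent.P160.Stable
import Vale.Agent.P160.Event

/-! Concentrated kernel vectors of a symmetric sign matrix modulo a prime. -/

namespace Vale.Agent.P160

open Finset

/-- A slice bound given directly on the fibres. -/
theorem slice_count {U : Type*} [Fintype U] [DecidableEq U] (F : Finset U)
    (G G' : Finset (U → Bool)) (hsub : G' ⊆ G)
    (hG : ∀ x ∈ G, ∀ y : U → Bool, (∀ u, u ∉ F → y u = x u) → y ∈ G)
    (B : ℝ) (hB0 : 0 ≤ B)
    (hB : ∀ x ∈ G', ((G'.filter fun y => ∀ u : {u // u ∉ F}, y u = x u).card : ℝ)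
      ≤ B * 2 ^ F.card) :
    (G'.card : ℝ) ≤ B * G.card := by
  classical
  let r : (U → Bool) → ({u // u ∉ F} → Bool) := fun x u => x u
  have hG' : (G'.card : ℝ) ≤ B * 2 ^ F.card * (G.image r).card := by
    calc (G'.card : ℝ) = ∑ b ∈ G'.image r, ((G'.filter fun y => r y = b).card : ℝ) := by
          exact_mod_cast card_eq_sum_card_image r G'
      _ ≤ ∑ _b ∈ G'.image r, B * 2 ^ F.card := by
          refine sum_le_sum fun b hb => ?_
          obtain ⟨x, hx, rfl⟩ := mem_image.1 hb
          refine le_trans (le_of_eq ?_) (hB x hx)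
          congr 2
          exact filter_congr fun y _ => funext_iff
      _ ≤ _ := by
          rw [sum_const, nsmul_eq_mul, mul_comm]
          gcongr
  have hGc : G.card = (G.image r).card * 2 ^ F.card := by
    rw [card_eq_sum_card_image r G, ← smul_eq_mul, ← sum_const]
    refine sum_congr rfl fun b hb => ?_
    obtain ⟨x, hx, rfl⟩ := mem_image.1 hb
    rw [← Fintype.card_coe F, ← Fintype.card_bool, ← Fintype.card_fun, ← card_univ]
    refine card_bij (fun y _ (u : F) => y u) (fun _ _ => mem_univ _) ?_ ?_
    · intro y hy z hz hyz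
      funext u
      by_cases hu : u ∈ F
      · exact congrFun hyz ⟨u, hu⟩
      · exact (congrFun ((mem_filter.1 hy).2.trans (mem_filter.1 hz).2.symm) ⟨u, hu⟩)
    · intro b _
      refine ⟨fun u => if h : u ∈ F then b ⟨u, h⟩ else x u, mem_filter.2 ⟨hG x hx _ ?_, ?_⟩, ?_⟩
      · intro u hu; simp [hu]
      · funext u; simp [r, u.2]
      · funext u; simp
  rw [hGc]
  push_cast
  linarith

variable {n p : ℕ} [Fact p.Prime]

/-- Points whose matrix kills `v` modulo `p` in the rows of `C`. -/
noncomputable def modEqs (S C : Finset (Fin n)) (v : Fin n → ZMod p) : Finset (Pos n → Bool) :=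
  univ.filter fun ω => ∀ i ∈ C, ∑ j ∈ S, v j * unitSign (ω (key i j)) = 0

theorem modEqs_card (S C : Finset (Fin n)) (v : Fin n → ZMod p) (B : Fin n → ℝ)
    (hB : ∀ i x, sumDist (freshCols S ∅ i) v x ≤ B i) :
    ((modEqs S C v).card : ℝ) ≤ (∏ i ∈ C, B i) * Fintype.card (Pos n → Bool) := by
  classical
  have hB0 : ∀ i, 0 ≤ B i := fun i => (sumDist_nonneg _ _ _).trans (hB i 0)
  induction C using Finset.induction_on_max with
  | empty => simp [modEqs]
  | insert a C hlt ih =>
    have ha : a ∉ C := fun h => lt_irrefl _ (hlt a h)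
    rw [prod_insert ha, mul_assoc]
    refine le_trans ?_ (mul_le_mul_of_nonneg_left ih (hB0 a))
    set J := freshCols S ∅ a with hJdef
    have hJS : J ⊆ S := filter_subset _ _
    have hinj : Set.InjOn (key a) J := by
      intro x _ y _ h
      rcases (key_eq_iff a x a y).1 h with ⟨_, h'⟩ | ⟨h1, h2⟩
      · exact h'
      · rw [h2, ← h1]
    refine slice_count (J.image (key a)) _ _ ?_ ?_ (B a) (hB0 a) ?_
    · intro x hx
      simp only [modEqs, mem_filter, mem_univ, true_and] at hx ⊢
      exact fun i hi => hx i (mem_insert_of_mem hi)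
    · intro x hx y hxy
      simp only [modEqs, mem_filter, mem_univ, true_and] at hx ⊢
      intro i hi
      rw [← hx i hi]
      refine sum_congr rfl fun j hjS => ?_
      rw [hxy]
      intro hm
      obtain ⟨c, hc, e⟩ := mem_image.1 hm
      simp only [hJdef, freshCols, mem_filter] at hc
      rcases (key_eq_iff a c i j).1 e with ⟨h1, _⟩ | ⟨h1, h2⟩
      · exact ha (h1 ▸ hi)
      · subst h1 h2
        rcases hc.2 with h3 | h3
        · exact h3 hjS
        · exact absurd (hlt _ hi) (not_lt.2 h3.2)
    · intro x hx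
      set fib := (modEqs S (insert a C) v).filter
        fun y => ∀ u : {u // u ∉ J.image (key a)}, y u = x u with hfib
      set t : ZMod p := - ∑ j ∈ S \ J, v j * unitSign (x (key a j)) with ht
      set D := univ.filter fun ε : Fin n → Bool => ∑ j ∈ J, v j * unitSign (ε j) = t with hD
      let ψ : (Pos n → Bool) × ({j // j ∉ J} → Bool) → (Fin n → Bool) :=
        fun q j => if h : j ∈ J then q.1 (key a j) else q.2 ⟨j, h⟩
      have hout : ∀ j ∈ S \ J, key a j ∉ J.image (key a) := by
        intro j hj hm
        obtain ⟨c, hc, e⟩ := mem_image.1 hm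
        rcases (key_eq_iff a c a j).1 e with ⟨_, h1⟩ | ⟨h1, h2⟩
        · exact (Finset.mem_sdiff.1 hj).2 (h1 ▸ hc)
        · exact (Finset.mem_sdiff.1 hj).2 (h1 ▸ h2 ▸ hc)
      have hmap : ∀ q ∈ fib ×ˢ (univ : Finset ({j // j ∉ J} → Bool)), ψ q ∈ D := by
        rintro ⟨y, g⟩ hq
        obtain ⟨hy, hagree⟩ := mem_filter.1 (mem_product.1 hq).1
        refine mem_filter.2 ⟨mem_univ _, ?_⟩
        have ey := (mem_filter.1 hy).2 a (mem_insert_self a C)
        rw [← sum_sdiff hJS] at ey
        rw [sum_congr rfl fun j hj => show v j * unitSign (ψ (y, g) j)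
          = v j * unitSign (y (key a j)) by simp [ψ, hj]]
        rw [ht, show ∑ j ∈ S \ J, v j * unitSign (x (key a j))
          = ∑ j ∈ S \ J, v j * unitSign (y (key a j)) from
            sum_congr rfl fun j hj => congrArg (fun b => v j * unitSign b) (hagree ⟨_, hout j hj⟩).symm]
        linear_combination ey
      have hψinj : Set.InjOn ψ ↑(fib ×ˢ (univ : Finset ({j // j ∉ J} → Bool))) := by
        rintro ⟨y, g⟩ hq ⟨y', g'⟩ hq' e
        have hy := (mem_filter.1 (mem_product.1 hq).1).2
        have hy' := (mem_filter.1 (mem_product.1 hq').1).2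
        simp only [Prod.mk.injEq]
        constructor
        · funext u
          by_cases hu : u ∈ J.image (key a)
          · obtain ⟨j, hj, rfl⟩ := mem_image.1 hu
            have := congrFun e j
            simpa [ψ, hj] using this
          · exact (hy ⟨u, hu⟩).trans (hy' ⟨u, hu⟩).symm
        · funext j
          have := congrFun e j.1
          simpa [ψ, j.2] using this
      have hcard : fib.card * 2 ^ (n - J.card) ≤ D.card := by
        have := card_le_card_of_injOn ψ hmap hψinj
        simpa [card_product, Fintype.card_subtype_compl] using this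
      have hDb : (D.card : ℝ) ≤ B a * 2 ^ n := by
        have := hB a t
        rwa [sumDist, div_le_iff₀ (by positivity)] at this
      have hn : (2 : ℝ) ^ n = 2 ^ J.card * 2 ^ (n - J.card) := by
        rw [← pow_add, Nat.add_sub_cancel' (by simpa using J.card_le_univ)]
      rw [card_image_of_injOn hinj]
      refine le_of_mul_le_mul_right ?_ (show (0 : ℝ) < 2 ^ (n - J.card) by positivity)
      calc (fib.card : ℝ) * 2 ^ (n - J.card) ≤ D.card := by exact_mod_cast hcard
        _ ≤ B a * 2 ^ n := hDb
        _ = _ := by rw [hn]; ring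

theorem freshCols_inside (S : Finset (Fin n)) {i : Fin n} (hi : i ∈ S) :
    freshCols S ∅ i = S.filter fun j => i ≤ j := by
  ext j; simp [freshCols, hi]

theorem freshCols_outside (S : Finset (Fin n)) {i : Fin n} (hi : i ∉ S) :
    freshCols S ∅ i = S := by
  ext j; simp [freshCols, hi]

theorem sumDist_le_half (h2 : (2 : ZMod p) ≠ 0) {J : Finset (Fin n)} (v : Fin n → ZMod p)
    (hne : J.Nonempty) (hv : ∀ j ∈ J, v j ≠ 0) (x : ZMod p) : sumDist J v x ≤ 1 / 2 := by
  obtain ⟨a, ha⟩ := hne
  rw [← insert_erase ha, sumDist_insert (notMem_erase a J)]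
  have hne : x - v a ≠ x + v a := by
    intro e
    have : (2 : ZMod p) * v a = 0 := by linear_combination -e
    exact (mul_ne_zero h2 (hv a ha)) this
  have := sum_le_sum_of_subset_of_nonneg (subset_univ ({x - v a, x + v a} : Finset (ZMod p)))
    fun y _ _ => sumDist_nonneg (J.erase a) v y
  rw [sum_pair hne, sumDist_sum] at this
  linarith

theorem card_parts (S : Finset (Fin n)) :
    (oddPart S).card ≤ (evenPart S).card ∧ (evenPart S).card ≤ (oddPart S).card + 1 := by
  induction S using Finset.induction_on_min with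
  | empty => simp [evenPart, oddPart]
  | insert a S h ih =>
    rw [evenPart_insert h, oddPart_insert h,
      card_insert_of_notMem (s := oddPart S) fun hm => lt_irrefl _ (h a ((filter_subset _ _) hm))]
    omega

theorem card_evenPart (S : Finset (Fin n)) : S.card ≤ 2 * (evenPart S).card := by
  have h := card_parts S
  have e : (evenPart S).card + (oddPart S).card = S.card := by
    rw [← card_union_of_disjoint (disjoint_parts S), union_parts]
  omega

open Classical in
/-- Points with a concentrated kernel vector modulo `p`. -/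
noncomputable def modKernel (n p : ℕ) [Fact p.Prime] (τ : ℝ) : Finset (Pos n → Bool) :=
  univ.filter fun ω => ∃ v : Fin n → ZMod p, v ≠ 0 ∧
    (∀ i, ∑ j, v j * unitSign (ω (key i j)) = 0) ∧ ∃ x, τ ≤ sumDist univ v x

theorem modKernel_card_le (n : ℕ) (hp : 64 ≤ p) (τ : ℝ) (hτ0 : 0 ≤ τ) (hτ1 : τ ≤ 1)
    (hpτ : 2 < (p : ℝ) * τ ^ 2) (m M : ℕ) (hm : (p : ℝ) * (1 - 1 / 16384) ^ m ≤ 1 / 32)
    (hM : ∀ k : ℕ, M ≤ 2 * k → (1 - 1 / 16384 : ℝ) ^ k ≤ 1 / 32) :
    ((modKernel n p τ).card : ℝ)
      ≤ (((M + 1) * (n + 1) ^ M * p ^ M : ℕ) * (1 / 2) ^ n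
          + (5 / 16) ^ n / (τ ^ 2) ^ (2 * m + 1)) * Fintype.card (Pos n → Bool) := by
  classical
  have h2 : (2 : ZMod p) ≠ 0 := by
    rw [show (2 : ZMod p) = ((2 : ℕ) : ZMod p) by norm_num, Ne, ZMod.natCast_eq_zero_iff]
    intro h
    have := Nat.le_of_dvd (by norm_num) h
    omega
  set θ := τ ^ 2
  have hθ0 : 0 < θ := by
    rcases (lt_or_eq_of_le (sq_nonneg τ)) with h | h
    · exact h
    · exfalso; rw [show θ = 0 from h.symm] at hpτ; linarith
  set N : ℝ := ((Fintype.card (Pos n → Bool) : ℕ) : ℝ)
  let V : Finset (Fin n) → Finset (Fin n → ZMod p) := fun S => (onSupport S).filter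
    fun v => S.Nonempty ∧ θ ≤ collide (evenPart S) v ∧ θ ≤ collide (oddPart S) v
  have hsub : modKernel n p τ ⊆
      (univ : Finset (Finset (Fin n))).biUnion fun S => (V S).biUnion fun v => modEqs S univ v := by
    intro ω hω
    obtain ⟨v, hv, hker, x, hx⟩ := (mem_filter.1 hω).2
    set S := univ.filter fun j => v j ≠ 0 with hS
    have hsum : ∀ u : Fin n → ZMod p, ∑ j, v j * u j = ∑ j ∈ S, v j * u j := fun u =>
      (sum_subset (subset_univ _) fun j _ hj => by
        simp only [hS, mem_filter, mem_univ, true_and, not_not] at hj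
        rw [hj, zero_mul]).symm
    have hd : sumDist univ v x = sumDist S v x := by
      simp only [sumDist, fun ε : Fin n → Bool => hsum fun j => unitSign (ε j)]
    rw [hd] at hx
    have hsq := sumDist_sq_le (evenPart S) (oddPart S) (disjoint_parts S) v x
    rw [union_parts] at hsq
    have hτx : θ ≤ collide (evenPart S) v * collide (oddPart S) v :=
      (pow_le_pow_left₀ hτ0 hx 2).trans hsq
    refine mem_biUnion.2 ⟨S, mem_univ _, mem_biUnion.2 ⟨v, mem_filter.2
      ⟨Fintype.mem_piFinset.2 fun j => ?_, ?_, hτx.trans (mul_le_of_le_one_right (collide_pos _ _).le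
        (collide_le_one _ _)), hτx.trans (mul_le_of_le_one_left (collide_pos _ _).le
        (collide_le_one _ _))⟩, mem_filter.2 ⟨mem_univ _, fun i _ => ?_⟩⟩⟩
    · by_cases hj : v j = 0 <;> simp [hS, hj]
    · obtain ⟨j, hj⟩ := Function.ne_iff.1 hv
      exact ⟨j, by simpa [hS] using hj⟩
    · exact (hsum fun j => unitSign (ω (key i j))).symm.trans (hker i)
  have hnz : ∀ S, ∀ v ∈ V S, ∀ j ∈ S, v j ≠ 0 := by
    intro S v hv j hj
    have := Fintype.mem_piFinset.1 (mem_filter.1 hv).1 j
    simpa [hj] using this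
  have hfne : ∀ S : Finset (Fin n), S.Nonempty → ∀ i, (freshCols S ∅ i).Nonempty := by
    intro S hS i
    by_cases hi : i ∈ S
    · exact ⟨i, by rw [freshCols_inside S hi]; exact mem_filter.2 ⟨hi, le_rfl⟩⟩
    · rwa [freshCols_outside S hi]
  have hN : 0 ≤ N := Nat.cast_nonneg _
  have hsmall : ∀ S : Finset (Fin n), S.card ≤ M →
      ∑ v ∈ V S, ((modEqs S univ v).card : ℝ) ≤ ((p ^ M : ℕ) : ℝ) * (1 / 2) ^ n * N := by
    intro S hS
    have hterm : ∀ v ∈ V S, ((modEqs S univ v).card : ℝ) ≤ (1 / 2) ^ n * N := by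
      intro v hv
      refine (modEqs_card S univ v (fun _ => 1 / 2) fun i x => ?_).trans (le_of_eq (by simp [N]))
      exact sumDist_le_half h2 v (hfne S (mem_filter.1 hv).2.1 i)
        (fun j hj => hnz S v hv j ((filter_subset _ _) hj)) x
    refine (sum_le_sum hterm).trans ?_
    rw [sum_const, nsmul_eq_mul, ← mul_assoc]
    refine mul_le_mul_of_nonneg_right (mul_le_mul_of_nonneg_right ?_ (by positivity)) hN
    refine Nat.cast_le.2 ((card_filter_le _ _).trans ?_)
    rw [onSupport, Fintype.card_piFinset]
    simp only [apply_ite card, card_erase_of_mem (mem_univ _), card_univ, ZMod.card, card_singleton]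
    rw [prod_ite_mem_eq, prod_const]
    exact (Nat.pow_le_pow_left (Nat.sub_le _ _) _).trans (Nat.pow_le_pow_right (by omega) hS)
  have hlarge : ∀ S : Finset (Fin n), M < S.card →
      ∑ v ∈ V S, ((modEqs S univ v).card : ℝ)
        ≤ (1 / 16) ^ S.card * (1 / 4) ^ (n - S.card) / θ ^ (2 * m + 1) * N := by
    intro S hS
    have hterm : ∀ v ∈ V S, ((modEqs S univ v).card : ℝ)
        ≤ potential m S v * ((1 / 4) ^ (n - S.card) / θ ^ (2 * m + 1) * N) := by
      intro v hv
      obtain ⟨-, -, he, ho⟩ := mem_filter.1 hv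
      have hrow : rowBound S v ≤ 1 / 4 := by
        rw [rowBound, Real.sqrt_le_left (by norm_num)]
        have h1 := collide_decay v h2 hp (evenPart S) fun j hj =>
          hnz S v hv j ((filter_subset _ _) hj)
        have h3 := hM _ (hS.le.trans (card_evenPart S))
        rw [max_eq_left h3] at h1
        nlinarith [collide_le_one (oddPart S) v, collide_pos (evenPart S) v,
          collide_pos (oddPart S) v]
      refine (modEqs_card S univ v (fun i => if i ∈ S then rowBound (S.filter fun j => i ≤ j) v
        else 1 / 4) fun i x => ?_).trans ?_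
      · by_cases hi : i ∈ S
        · rw [freshCols_inside S hi, if_pos hi]; exact sumDist_le_rowBound _ _ _
        · rw [freshCols_outside S hi, if_neg hi]; exact (sumDist_le_rowBound _ _ _).trans hrow
      rw [prod_ite, prod_const, filter_mem_eq_inter, univ_inter,
        show (univ.filter fun i => i ∉ S) = Sᶜ by ext i; simp, card_compl, Fintype.card_fin,
        show potential m S v * ((1 / 4) ^ (n - S.card) / θ ^ (2 * m + 1) * N)
          = potential m S v * ((1 / 4) ^ (n - S.card) * N) / θ ^ (2 * m + 1) by ring,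
        le_div_iff₀ (pow_pos hθ0 _)]
      have hθ1 : θ ≤ 1 := by
        simp only [θ]; nlinarith
      have hpot : innerBound S v * θ ^ (2 * m + 1) ≤ potential m S v := by
        rw [potential, mul_assoc, show θ ^ (2 * m + 1) = θ * (θ * θ) ^ m by
          rw [pow_succ', mul_pow, ← pow_add, two_mul]]
        refine mul_le_mul_of_nonneg_left (mul_le_mul ?_
          (pow_le_pow_left₀ (by positivity) (mul_le_mul he ho hθ0.le (collide_pos _ _).le) _)
          (by positivity) (Real.sqrt_nonneg _)) (innerBound_nonneg _ _)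
        calc θ ≤ Real.sqrt θ := Real.le_sqrt_of_sq_le (by nlinarith)
          _ ≤ _ := Real.sqrt_le_sqrt he
      calc (∏ i ∈ S, rowBound (S.filter fun j => i ≤ j) v) * (1 / 4) ^ (n - S.card) * N
            * θ ^ (2 * m + 1)
          = innerBound S v * θ ^ (2 * m + 1) * ((1 / 4) ^ (n - S.card) * N) := by
            rw [innerBound]; ring
        _ ≤ potential m S v * ((1 / 4) ^ (n - S.card) * N) :=
            mul_le_mul_of_nonneg_right hpot (by positivity)
        _ = _ := by ring
    refine (sum_le_sum hterm).trans ?_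
    rw [← sum_mul]
    refine le_trans (mul_le_mul_of_nonneg_right (le_trans ?_ (sum_potential_le h2 θ hpτ m hm S))
      (by positivity)) (le_of_eq (by ring))
    exact sum_le_sum_of_subset_of_nonneg (fun v hv => mem_filter.2
      ⟨(mem_filter.1 hv).1, (mem_filter.1 hv).2.2⟩) fun v _ _ => potential_nonneg _ _ _
  calc ((modKernel n p τ).card : ℝ)
      ≤ ∑ S : Finset (Fin n), ∑ v ∈ V S, ((modEqs S univ v).card : ℝ) := by
        exact_mod_cast ((card_le_card hsub).trans card_biUnion_le).trans
          (sum_le_sum fun S _ => card_biUnion_le)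
    _ ≤ ∑ S ∈ univ.filter (fun S : Finset (Fin n) => S.card ≤ M),
          ((p ^ M : ℕ) : ℝ) * (1 / 2) ^ n * N
        + ∑ S : Finset (Fin n),
          (1 / 16) ^ S.card * (1 / 4) ^ (n - S.card) / θ ^ (2 * m + 1) * N := by
        rw [← sum_filter_add_sum_filter_not univ (fun S : Finset (Fin n) => S.card ≤ M)
          (fun S => ∑ v ∈ V S, ((modEqs S univ v).card : ℝ))]
        refine add_le_add (sum_le_sum fun S hS => hsmall S (mem_filter.1 hS).2) ?_
        refine (sum_le_sum fun S hS => hlarge S (not_le.1 (mem_filter.1 hS).2)).trans ?_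
        exact sum_le_sum_of_subset_of_nonneg (filter_subset _ _) fun S _ _ => by positivity
    _ ≤ _ := by
        rw [add_mul]
        refine add_le_add ?_ ?_
        · rw [sum_const, nsmul_eq_mul, ← mul_assoc, ← mul_assoc]
          refine mul_le_mul_of_nonneg_right (mul_le_mul_of_nonneg_right ?_ (by positivity)) hN
          rw [← Nat.cast_mul, Nat.cast_le]
          refine Nat.mul_le_mul_right _ ?_
          refine le_trans (card_le_card (t := (range (M + 1)).biUnion
            fun i => powersetCard i univ) ?_) ?_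
          · intro S hS
            simpa [Nat.lt_succ_iff] using (mem_filter.1 hS).2
          · refine card_biUnion_le.trans (le_trans (sum_le_sum (g := fun _ => (n + 1) ^ M)
              fun i hi => ?_) (by simp))
            rw [card_powersetCard, card_univ, Fintype.card_fin]
            exact (Nat.choose_le_pow n i).trans ((Nat.pow_le_pow_left (Nat.le_succ n) i).trans
              (Nat.pow_le_pow_right (Nat.succ_pos n) (Nat.lt_succ_iff.1 (Finset.mem_range.1 hi))))
        · rw [← sum_mul, ← sum_div]
          refine le_of_eq ?_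
          congr 2
          have := Fintype.sum_pow_mul_eq_add_pow (Fin n) (1 / 16 : ℝ) (1 / 4)
          rw [Fintype.card_fin] at this
          rw [this]; norm_num

end Vale.Agent.P160
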