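import Vale.Agent.P160.Event
import Vale.Agent.P160.Distinct

/-! Kernel vectors with prescribed classes of equal absolute values. -/

namespace Vale.Agent.P160

open Finset

/-- Bound for a value of a sum of `m` signs with `d` distinct absolute coefficients. -/
noncomputable def weight (m d : ℕ) : ℝ := 5 / ((d : ℝ) * ((m : ℝ) + 1) ^ (1 / 6 : ℝ))

theorem weight_nonneg (m d : ℕ) : 0 ≤ weight m d := by unfold weight; positivity

theorem pattern_sum_card {ι : Type*} [Fintype ι] [DecidableEq ι] [Nonempty ι] (c : ι → ℝ)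
    (hc : ∀ i, c i ≠ 0) (𝒜 : Finset (ι → Bool))
    (h : ∀ x ∈ 𝒜, ∀ y ∈ 𝒜, ∑ i, c i * bitSign (x i) = ∑ i, c i * bitSign (y i)) :
    (𝒜.card : ℝ) ≤ weight (Fintype.card ι) (univ.image fun i => |c i|).card * 2 ^ Fintype.card ι := by
  classical
  set V := univ.image fun i => |c i| with hV
  have hV1 : ∀ a ∈ V, ∃ i, |c i| = a := fun a ha => by simpa [hV] using ha
  choose r hr using hV1
  set F : Finset ι := V.attach.image fun a => r a.1 a.2
  have hinj : Function.Injective fun u : F => |c u| := by
    rintro ⟨i, hi⟩ ⟨j, hj⟩ hij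
    obtain ⟨⟨a, ha⟩, -, rfl⟩ := mem_image.1 hi
    obtain ⟨⟨b, hb⟩, -, rfl⟩ := mem_image.1 hj
    simp only [hr] at hij
    subst hij
    rfl
  have hFcard : F.card = V.card := by
    rw [card_image_of_injective _ fun a b hab => Subtype.ext (by
      rw [← hr a.1 a.2, ← hr b.1 b.2]; exact congrArg (fun i => |c i|) hab), card_attach]
  have hd : 1 ≤ V.card := card_pos.2 (Finset.univ_nonempty.image _)
  set m := Fintype.card ι
  set d := V.card
  have hd' : (0 : ℝ) < d := by exact_mod_cast hd
  set p : ℝ := (𝒜.card : ℝ) / 2 ^ m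
  have hp0 : 0 ≤ p := by positivity
  have h1 : p ≤ atom m := by
    have := signed_sum_card c hc 𝒜 h
    exact div_le_div_of_nonneg_right (by exact_mod_cast this) (by positivity)
  have h2 : p ≤ 10 / Real.sqrt ((d : ℝ) ^ 3) := by
    rw [div_le_iff₀ (by positivity)]
    have hs := slice_bound F univ 𝒜 (subset_univ _) (fun _ _ _ _ => mem_univ _)
      (10 / Real.sqrt ((d : ℝ) ^ 3)) (by positivity) (fun _ => c) ?_ ?_
    · simpa [m] using hs
    · intro x _ ℬ hℬ
      have := distinct_sum_card (fun u : F => c u) (fun u => hc u) hinj ℬ hℬ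
      rw [Fintype.card_coe, hFcard] at this
      rw [hFcard, ← div_le_iff₀ (by positivity), le_div_iff₀ (by positivity),
        ← pow_le_pow_iff_left₀ (by positivity) (by norm_num) two_ne_zero, mul_pow,
        Real.sq_sqrt (by positivity)]
      norm_num
      exact this
    · intro x hx y hy hxy
      have e := h x hx y hy
      rw [← sum_sdiff (subset_univ F)] at e
      conv_rhs at e => rw [← sum_sdiff (subset_univ F)]
      have : ∑ i ∈ univ \ F, c i * bitSign (y i) = ∑ i ∈ univ \ F, c i * bitSign (x i) :=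
        sum_congr rfl fun i hi => by rw [hxy i (mem_sdiff.1 hi).2]
      linarith
  suffices hp : p ≤ weight m d by
    rwa [div_le_iff₀ (by positivity)] at hp
  set γ : ℝ := ((m : ℝ) + 1) ^ (1 / 6 : ℝ)
  have hγ0 : 0 < γ := by positivity
  have hγ : γ ^ 6 = (m : ℝ) + 1 := by
    rw [← Real.rpow_natCast, ← Real.rpow_mul (by positivity)]
    norm_num
  rw [weight, le_div_iff₀ (by positivity), ← pow_le_pow_iff_left₀ (by positivity) (by norm_num)
    (show (6 : ℕ) ≠ 0 by norm_num)]
  have h1' : p ^ 2 * ((m : ℝ) + 1) ≤ 1 :=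
    le_trans (by gcongr) (atom_sq_le m)
  have h2' : p ^ 2 * (d : ℝ) ^ 3 ≤ 100 := by
    rw [le_div_iff₀ (by positivity)] at h2
    have := pow_le_pow_left₀ (by positivity) h2 2
    rw [mul_pow, Real.sq_sqrt (by positivity)] at this
    linarith
  calc (p * ((d : ℝ) * γ)) ^ 6 = (p ^ 2 * ((m : ℝ) + 1)) * (p ^ 2 * (d : ℝ) ^ 3) ^ 2 := by
        rw [← hγ]; ring
    _ ≤ 1 * 100 ^ 2 := mul_le_mul h1' (pow_le_pow_left₀ (by positivity) h2' 2) (by positivity)
          zero_le_one
    _ ≤ _ := by norm_num

variable {n : ℕ}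

open Classical in
/-- Positive distinct class values, orthogonal to the rows in `R` when possible. -/
noncomputable def classVals (S R : Finset (Fin n)) (σ : Fin n → Bool) (g : Fin n → Fin n)
    (M : Fin n → Fin n → ℝ) : Fin n → ℝ :=
  if h : ∃ u : Fin n → ℝ, (∀ j ∈ S, 0 < u (g j)) ∧ Set.InjOn u (S.image g) ∧
      ∀ i ∈ R, ∑ j ∈ S, M i j * (bitSign (σ j) * u (g j)) = 0 then h.choose
  else fun a => ((a : ℕ) : ℝ) + 1

theorem classVals_spec (S R : Finset (Fin n)) (σ : Fin n → Bool) (g : Fin n → Fin n)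
    (M : Fin n → Fin n → ℝ) :
    (∀ j ∈ S, 0 < classVals S R σ g M (g j)) ∧ Set.InjOn (classVals S R σ g M) (S.image g) := by
  unfold classVals
  split_ifs with h
  · exact ⟨h.choose_spec.1, h.choose_spec.2.1⟩
  · exact ⟨fun j _ => by positivity, fun a _ b _ hab => Fin.ext (by simpa using hab)⟩

theorem classVals_orth {S R : Finset (Fin n)} {σ : Fin n → Bool} {g : Fin n → Fin n}
    {M : Fin n → Fin n → ℝ}
    (h : ∃ u : Fin n → ℝ, (∀ j ∈ S, 0 < u (g j)) ∧ Set.InjOn u (S.image g) ∧
      ∀ i ∈ R, ∑ j ∈ S, M i j * (bitSign (σ j) * u (g j)) = 0) :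
    ∀ i ∈ R, ∑ j ∈ S, M i j * (bitSign (σ j) * classVals S R σ g M (g j)) = 0 := by
  unfold classVals
  rw [dif_pos h]
  exact h.choose_spec.2.2

/-- The coefficient vector of a pattern. -/
noncomputable def patCoeff (S R : Finset (Fin n)) (σ : Fin n → Bool) (g : Fin n → Fin n)
    (ω : Pos n → Bool) : Fin n → ℝ :=
  fun j => bitSign (σ j) * classVals S R σ g (exposed S R ω) (g j)

theorem abs_patCoeff (S R : Finset (Fin n)) (σ : Fin n → Bool) (g : Fin n → Fin n)
    (ω : Pos n → Bool) {j : Fin n} (hj : j ∈ S) :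
    |patCoeff S R σ g ω j| = classVals S R σ g (exposed S R ω) (g j) := by
  have := (classVals_spec S R σ g (exposed S R ω)).1 j hj
  unfold patCoeff bitSign
  split_ifs <;> simp [abs_of_pos this]

/-- The points satisfying the equations in `C` for a pattern. -/
noncomputable def patEqs (S R C : Finset (Fin n)) (σ : Fin n → Bool) (g : Fin n → Fin n) :
    Finset (Pos n → Bool) :=
  univ.filter fun ω => ∀ i ∈ C, ∑ j ∈ S, ent ω i j * patCoeff S R σ g ω j = 0

/-- Columns giving fresh entries to the row `i` in the order given by `ρ`. -/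
def patFresh (S R : Finset (Fin n)) (ρ : Fin n → ℕ) (i : Fin n) : Finset (Fin n) :=
  S.filter fun j => i ∉ S ∨ (j ∉ R ∧ ρ i ≤ ρ j)

theorem patFresh_nonempty {S R : Finset (Fin n)} (ρ : Fin n → ℕ) (hS : S.Nonempty) {i : Fin n}
    (hi : i ∉ R) : (patFresh S R ρ i).Nonempty := by
  by_cases hiS : i ∈ S
  · exact ⟨i, mem_filter.2 ⟨hiS, Or.inr ⟨hi, le_rfl⟩⟩⟩
  · exact ⟨hS.choose, mem_filter.2 ⟨hS.choose_spec, Or.inl hiS⟩⟩

theorem patEqs_card (S R : Finset (Fin n)) (σ : Fin n → Bool) (g : Fin n → Fin n)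
    (ρ : Fin n → ℕ) (hρ : Function.Injective ρ) (hS : S.Nonempty) (C : Finset (Fin n))
    (hC : ∀ i ∈ C, i ∉ R) :
    ((patEqs S R C σ g).card : ℝ)
      ≤ (∏ i ∈ C, weight (patFresh S R ρ i).card ((patFresh S R ρ i).image g).card)
          * (Fintype.card (Pos n → Bool)) := by
  classical
  induction C using Finset.induction_on_max_value ρ with
  | empty => simp [patEqs]
  | insert a C ha hle ih =>
    have hlt : ∀ x ∈ C, ρ x < ρ a := fun x hx =>
      lt_of_le_of_ne (hle x hx) fun h => ha (hρ h ▸ hx)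
    have haR : a ∉ R := hC a (mem_insert_self a C)
    rw [prod_insert ha, mul_assoc]
    refine le_trans ?_ (mul_le_mul_of_nonneg_left (ih fun i hi => hC i (mem_insert_of_mem hi))
      (weight_nonneg _ _))
    set J := patFresh S R ρ a with hJdef
    have hJS : J ⊆ S := filter_subset _ _
    have hinj : Set.InjOn (key a) J := by
      intro x _ y _ h
      rcases (key_eq_iff a x a y).1 h with ⟨_, h'⟩ | ⟨h1, h2⟩
      · exact h'
      · rw [h2, ← h1]
    have hexp : ∀ x y : Pos n → Bool, (∀ u, u ∉ J.image (key a) → y u = x u) →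
        patCoeff S R σ g y = patCoeff S R σ g x := by
      intro x y hxy
      have : exposed S R y = exposed S R x := by
        funext r s
        unfold exposed
        split_ifs with h
        · unfold ent
          rw [hxy]
          intro hm
          obtain ⟨j, hj, e⟩ := mem_image.1 hm
          simp only [hJdef, patFresh, mem_filter] at hj
          rcases (key_eq_iff a j r s).1 e with ⟨h1, _⟩ | ⟨h1, h2⟩
          · exact haR (h1 ▸ h.1)
          · subst h1 h2
            rcases hj.2 with h3 | h3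
            · exact h3 h.2
            · exact h3.1 h.1
        · rfl
      unfold patCoeff
      rw [this]
    have hold : ∀ x y : Pos n → Bool, (∀ u, u ∉ J.image (key a) → y u = x u) →
        ∀ i ∈ C, ∀ j ∈ S, ent y i j = ent x i j := by
      intro x y hxy i hi j hjS
      unfold ent
      rw [hxy]
      intro hm
      obtain ⟨c, hc, e⟩ := mem_image.1 hm
      simp only [hJdef, patFresh, mem_filter] at hc
      rcases (key_eq_iff a c i j).1 e with ⟨h1, _⟩ | ⟨h1, h2⟩
      · exact ha (h1 ▸ hi)
      · subst h1 h2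
        rcases hc.2 with h3 | h3
        · exact h3 hjS
        · exact absurd (hlt _ hi) (not_lt.2 h3.2)
    let oth : Pos n → Fin n := fun u => if u.1.1 = a then u.1.2 else u.1.1
    have hoth : ∀ j, oth (key a j) = j := by
      intro j
      unfold oth key
      split_ifs <;> simp_all
    refine slice_bound (J.image (key a)) _ _ ?_ ?_ _ (weight_nonneg _ _)
      (fun x u => patCoeff S R σ g x (oth u)) ?_ ?_
    · intro x hx
      simp only [patEqs, mem_filter, mem_univ, true_and] at hx ⊢
      exact fun i hi => hx i (mem_insert_of_mem hi)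
    · intro x hx y hxy
      simp only [patEqs, mem_filter, mem_univ, true_and] at hx ⊢
      intro i hi
      rw [hexp x y hxy, ← hx i hi]
      exact sum_congr rfl fun j hj => by rw [hold x y hxy i hi j hj]
    · intro x _ 𝒜 h𝒜
      have : Nonempty (J.image (key a)) :=
        ((patFresh_nonempty ρ hS haR).image (key a)).to_subtype
      have hne : ∀ u : J.image (key a), patCoeff S R σ g x (oth u) ≠ 0 := by
        rintro ⟨u, hu⟩
        obtain ⟨j, hj, rfl⟩ := mem_image.1 hu
        rw [← abs_pos, hoth, abs_patCoeff S R σ g x (hJS hj)]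
        exact (classVals_spec S R σ g _).1 j (hJS hj)
      have hb := pattern_sum_card _ hne 𝒜 h𝒜
      have himg : (Finset.image (fun u : J.image (key a) => |patCoeff S R σ g x (oth u.1)|)
          univ).card = (J.image g).card := by
        calc _ = ((J.image g).image (classVals S R σ g (exposed S R x))).card := by
              congr 1
              ext t
              simp only [mem_image, mem_univ, true_and]
              constructor
              · rintro ⟨⟨u, hu⟩, rfl⟩
                obtain ⟨j, hj, rfl⟩ := mem_image.1 hu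
                exact ⟨g j, ⟨j, hj, rfl⟩, by rw [hoth, abs_patCoeff S R σ g x (hJS hj)]⟩
              · rintro ⟨_, ⟨j, hj, rfl⟩, rfl⟩
                exact ⟨⟨key a j, mem_image_of_mem _ hj⟩, by
                  rw [hoth, abs_patCoeff S R σ g x (hJS hj)]⟩
          _ = _ := card_image_of_injOn
              ((classVals_spec S R σ g _).2.mono (coe_subset.2 (image_subset_image hJS)))
      rw [himg, Fintype.card_coe, card_image_of_injOn hinj] at hb
      rwa [card_image_of_injOn hinj]
    · intro x hx y hy hxy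
      simp only [patEqs, mem_filter, mem_univ, true_and] at hx hy
      have ex := hx a (mem_insert_self a C)
      have ey := hy a (mem_insert_self a C)
      rw [hexp x y hxy] at ey
      rw [← sum_sdiff hJS] at ex ey
      have hrest : ∑ j ∈ S \ J, ent y a j * patCoeff S R σ g x j
          = ∑ j ∈ S \ J, ent x a j * patCoeff S R σ g x j := by
        refine sum_congr rfl fun j hj => ?_
        unfold ent
        rw [hxy]
        intro hm
        obtain ⟨c, hc, e⟩ := mem_image.1 hm
        rcases (key_eq_iff a c a j).1 e with ⟨_, h1⟩ | ⟨h1, h2⟩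
        · exact (mem_sdiff.1 hj).2 (h1 ▸ hc)
        · exact (mem_sdiff.1 hj).2 (h1 ▸ h2 ▸ hc)
      have hsum : ∀ z : Pos n → Bool,
          ∑ u ∈ J.image (key a), patCoeff S R σ g x (oth u) * bitSign (z u)
            = ∑ j ∈ J, ent z a j * patCoeff S R σ g x j := by
        intro z
        rw [sum_image hinj]
        exact sum_congr rfl fun j _ => by rw [hoth, ent, mul_comm]
      rw [hsum, hsum]
      linarith

/-- A kernel vector is caught by the pattern of its absolute values. -/
theorem exists_patEqs (ω : Pos n → Bool) (v : Fin n → ℝ) (hv : v ≠ 0)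
    (hAv : ∀ i, ∑ j, ent ω i j * v j = 0) :
    ∃ (S R P : Finset (Fin n)) (σ : Fin n → Bool) (g : Fin n → Fin n),
      S = univ.filter (fun j => v j ≠ 0) ∧ P ⊆ S ∧ R.card + 1 = P.card ∧
      P.card = (S.image fun j => |v j|).card ∧
      (∀ j, j ∈ P ∨ j ∉ S → g j = j) ∧ (∀ j ∈ S \ R, g j ∈ P \ R) ∧
      ω ∈ patEqs S R Rᶜ σ g := by
  classical
  set S := univ.filter (fun j => v j ≠ 0) with hSdef
  set V := S.image fun j => |v j| with hVdef
  have hVS : ∀ j ∈ S, |v j| ∈ V := fun j hj => mem_image_of_mem _ hj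
  have hV : 1 ≤ V.card := by
    obtain ⟨j, hj⟩ := Function.ne_iff.1 hv
    exact card_pos.2 ⟨|v j|, hVS j (by simpa [hSdef] using hj)⟩
  let σ : Fin n → Bool := fun j => decide (0 ≤ v j)
  have hσ : ∀ j, bitSign (σ j) * |v j| = v j := by
    intro j
    simp only [σ, bitSign]
    by_cases h : 0 ≤ v j
    · simp [h, abs_of_nonneg h]
    · simp [h, abs_of_neg (not_le.1 h)]
  let b : Fin n → (V → ℝ) := fun i a =>
    ∑ j ∈ S.filter (fun j => |v j| = (a : ℝ)), ent ω i j * bitSign (σ j)
  have hb : ∀ (i : Fin n) (u : ℝ → ℝ),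
      ∑ a : V, b i a * u a = ∑ j ∈ S, ent ω i j * (bitSign (σ j) * u |v j|) := by
    intro i u
    rw [Finset.sum_coe_sort V
      (fun a => (∑ j ∈ S.filter (fun j => |v j| = a), ent ω i j * bitSign (σ j)) * u a)]
    rw [← sum_fiberwise_of_maps_to hVS]
    refine sum_congr rfl fun a _ => ?_
    rw [sum_mul]
    refine sum_congr rfl fun j hj => ?_
    rw [(mem_filter.1 hj).2, mul_assoc]
  have hAS : ∀ i, ∑ a : V, b i a * (a : ℝ) = 0 := by
    intro i
    refine (hb i id).trans ?_
    simp only [id, hσ]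
    rw [← hAv i]
    refine sum_subset (subset_univ _) fun j _ hj => ?_
    simp only [hSdef, mem_filter, mem_univ, true_and, not_not] at hj
    rw [hj, mul_zero]
  obtain ⟨κ, f, hf, hspan, hli⟩ := exists_linearIndependent' ℝ b
  have : Fintype κ := Fintype.ofInjective f hf
  let ev : (V → ℝ) →ₗ[ℝ] ℝ :=
    { toFun := fun u => ∑ a : V, u a * (a : ℝ)
      map_add' := fun u w => by simp [add_mul, sum_add_distrib]
      map_smul' := fun c u => by simp [mul_sum, mul_assoc] }
  have hne : LinearMap.ker ev ≠ ⊤ := by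
    intro htop
    obtain ⟨a0, ha0⟩ := card_pos.1 hV
    have hmem : Pi.single (⟨a0, ha0⟩ : V) (1 : ℝ) ∈ LinearMap.ker ev := htop ▸ Submodule.mem_top
    rw [LinearMap.mem_ker] at hmem
    have : ev (Pi.single (⟨a0, ha0⟩ : V) (1 : ℝ)) = a0 := by
      simp [ev, Pi.single_apply, Finset.univ_eq_attach]
    rw [this] at hmem
    simp [hVdef, hSdef, hmem] at ha0
  have hle : Submodule.span ℝ (Set.range b) ≤ LinearMap.ker ev := by
    rw [Submodule.span_le]
    rintro _ ⟨i, rfl⟩
    simp only [SetLike.mem_coe, LinearMap.mem_ker]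
    exact hAS i
  have hκ : Fintype.card κ < V.card := by
    have hdim : Module.finrank ℝ (Submodule.span ℝ (Set.range b)) < V.card := by
      refine lt_of_le_of_lt (Submodule.finrank_mono hle) ?_
      simpa using Submodule.finrank_lt hne
    rw [← hspan, finrank_span_eq_card hli] at hdim
    exact hdim
  obtain ⟨R, hTR, hRcard⟩ := Finset.exists_superset_card_eq
    (s := (univ : Finset κ).image f) (n := V.card - 1)
    (by have := card_image_le (s := (univ : Finset κ)) (f := f); simp at *; omega)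
    (by
      have h1 : V.card ≤ S.card := card_image_le
      have := S.card_le_univ
      simp at this ⊢; omega)
  have hrep : ∀ a : ℝ, a ∈ V → ∃ j ∈ S, |v j| = a ∧ ((∃ i ∈ S \ R, |v i| = a) → j ∉ R) := by
    intro a ha
    by_cases h : ∃ i ∈ S \ R, |v i| = a
    · obtain ⟨i, hi, hia⟩ := h
      exact ⟨i, (mem_sdiff.1 hi).1, hia, fun _ => (mem_sdiff.1 hi).2⟩
    · obtain ⟨j, hj, hja⟩ := mem_image.1 ha
      exact ⟨j, hj, hja, fun h' => absurd h' h⟩
  choose rep hrepS hrepv hrepR using hrep
  let g : Fin n → Fin n := fun j => if h : |v j| ∈ V ∧ j ∈ S then rep _ h.1 else j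
  have hg : ∀ (j : Fin n) (hj : j ∈ S), g j = rep _ (hVS j hj) := fun j hj => dif_pos ⟨hVS j hj, hj⟩
  have hgv : ∀ j ∈ S, |v (g j)| = |v j| := fun j hj => by rw [hg j hj]; exact hrepv _ _
  have hrepeq : ∀ a b : ℝ, a = b → ∀ ha hb, rep a ha = rep b hb := by
    rintro a b rfl ha hb; rfl
  have hPcard : (S.image g).card = V.card := by
    have : (S.image g).image (fun j => |v j|) = V := by
      rw [image_image]
      exact image_congr fun j hj => hgv j hj
    rw [← this]
    refine (card_image_of_injOn ?_).symm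
    intro x hx y hy hxy
    obtain ⟨i, hi, rfl⟩ := mem_image.1 hx
    obtain ⟨j, hj, rfl⟩ := mem_image.1 hy
    simp only [hgv i hi, hgv j hj] at hxy
    rw [hg i hi, hg j hj]
    exact hrepeq _ _ hxy _ _
  refine ⟨S, R, S.image g, σ, g, rfl, ?_, by rw [hRcard, hPcard]; omega, hPcard, ?_, ?_, ?_⟩
  · intro x hx
    obtain ⟨j, hj, rfl⟩ := mem_image.1 hx
    rw [hg j hj]
    exact hrepS _ _
  · rintro j (hj | hj)
    · obtain ⟨i, hi, rfl⟩ := mem_image.1 hj
      have hgS : g i ∈ S := by rw [hg i hi]; exact hrepS _ _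
      rw [hg _ hgS]
      exact (hrepeq _ _ (hgv i hi) _ _).trans (hg i hi).symm
    · exact dif_neg fun h => hj h.2
  · intro j hj
    refine mem_sdiff.2 ⟨mem_image_of_mem g (mem_sdiff.1 hj).1, ?_⟩
    rw [hg j (mem_sdiff.1 hj).1]
    exact hrepR _ _ ⟨j, hj, rfl⟩
  have hcong : ∀ (u : Fin n → ℝ), ∀ i ∈ R,
      ∑ j ∈ S, exposed S R ω i j * u j = ∑ j ∈ S, ent ω i j * u j := by
    intro u i hi
    refine sum_congr rfl fun j hj => ?_
    simp [exposed, hi, hj]
  have hex : ∃ u : Fin n → ℝ, (∀ j ∈ S, 0 < u (g j)) ∧ Set.InjOn u (S.image g) ∧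
      ∀ i ∈ R, ∑ j ∈ S, exposed S R ω i j * (bitSign (σ j) * u (g j)) = 0 := by
    refine ⟨fun j => |v j|, fun j hj => ?_, ?_, fun i hi => ?_⟩
    · simp only [hgv j hj, abs_pos]; exact (mem_filter.1 hj).2
    · intro x hx y hy hxy
      obtain ⟨i, hi, rfl⟩ := mem_image.1 hx
      obtain ⟨j, hj, rfl⟩ := mem_image.1 hy
      simp only [hgv i hi, hgv j hj] at hxy
      rw [hg i hi, hg j hj]
      exact hrepeq _ _ hxy _ _
    · rw [hcong (fun j => bitSign (σ j) * |v (g j)|) i hi]
      refine Eq.trans ?_ ((hb i id).symm.trans (hAS i))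
      exact sum_congr rfl fun j hj => by rw [hgv j hj]; rfl
  set cv := classVals S R σ g (exposed S R ω)
  let w : ℝ → ℝ := fun a => if ha : a ∈ V then cv (rep a ha) else 0
  have hw : ∀ i, ∑ a : V, b i a * w a = ∑ j ∈ S, ent ω i j * patCoeff S R σ g ω j := by
    intro i
    rw [hb i w]
    refine sum_congr rfl fun j hj => ?_
    simp only [w, dif_pos (hVS j hj), patCoeff, hg j hj]
    rfl
  let ew : (V → ℝ) →ₗ[ℝ] ℝ :=
    { toFun := fun u => ∑ a : V, u a * w a
      map_add' := fun u w => by simp [add_mul, sum_add_distrib]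
      map_smul' := fun c u => by simp [mul_sum, mul_assoc] }
  have hwle : Submodule.span ℝ (Set.range b) ≤ LinearMap.ker ew := by
    rw [← hspan, Submodule.span_le]
    rintro _ ⟨t, rfl⟩
    simp only [SetLike.mem_coe, LinearMap.mem_ker]
    have ht : f t ∈ R := hTR (mem_image.2 ⟨t, mem_univ _, rfl⟩)
    refine (hw (f t)).trans ?_
    rw [← hcong _ _ ht]
    exact classVals_orth hex _ ht
  simp only [patEqs, mem_filter, mem_univ, true_and]
  intro i _
  have := hwle (Submodule.subset_span ⟨i, rfl⟩)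
  rw [LinearMap.mem_ker] at this
  exact (hw i).symm.trans this

end Vale.Agent.P160
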