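import Vale.Agent.P160.Event

/-! The exponential rate of kernel vectors with `12 n / log n` zero coordinates. -/

namespace Vale.Agent.P160

open Finset Filter

open Classical in
/-- Points of the cube whose matrix kills a nonzero vector with at least `L` zero coordinates. -/
noncomputable def sparseKernel (n : ℕ) (L : ℝ) : Finset (Pos n → Bool) :=
  univ.filter fun ω => ∃ v : Fin n → ℝ, v ≠ 0 ∧ (∀ i, ∑ j, ent ω i j * v j = 0) ∧
    L ≤ (Nat.card {j : Fin n // v j = 0} : ℝ)

theorem sparseKernel_card_le (n : ℕ) (hn : 1 ≤ n) (T L : ℕ) (hT : 1 ≤ T) (x : ℝ)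
    (hx : ∀ z : ℕ, x ≤ z → L ≤ z) :
    ((sparseKernel n x).card : ℝ)
      ≤ (((T : ℝ) * (n : ℝ) ^ T) ^ 2 * (2 : ℝ) ^ T / 2 ^ n
          + (4 : ℝ) ^ n * (1 / Real.sqrt T) ^ (L - T)) * Fintype.card (Pos n → Bool) := by
  classical
  let P : Finset (Finset (Fin n) × Finset (Fin n)) := univ.filter fun p =>
    1 ≤ p.1.card ∧ p.1.card + L ≤ n ∧ p.2.card = p.1.card - 1
  have hsub : sparseKernel n x ⊆ P.biUnion fun p => eqs p.1 p.2 p.2ᶜ := by
    intro ω hω
    simp only [sparseKernel, mem_filter, mem_univ, true_and] at hω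
    obtain ⟨v, hv, hAv, hz⟩ := hω
    obtain ⟨S, R, hS, h1, hR, hmem⟩ := exists_eqs ω v hv hAv
    refine mem_biUnion.2 ⟨(S, R), mem_filter.2 ⟨mem_univ _, h1, ?_, hR⟩, hmem⟩
    have hz' := hx _ hz
    have e : Nat.card {j : Fin n // v j = 0} = (univ.filter fun j => v j = 0).card := by
      rw [Nat.card_eq_fintype_card, Fintype.card_subtype]
    rw [e] at hz'
    have := Finset.card_filter_add_card_filter_not (s := (univ : Finset (Fin n))) (fun j => v j = 0)
    rw [card_univ, Fintype.card_fin] at this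
    rw [hS]
    simp only [ne_eq] at *
    omega
  have hN : ∀ p ∈ P, p.2ᶜ.card = n - p.1.card + 1 := by
    intro p hp
    obtain ⟨h1, h2, h3⟩ := (mem_filter.1 hp).2
    rw [card_compl, Fintype.card_fin, h3]
    omega
  have hterm : ∀ p ∈ P, ((eqs p.1 p.2 p.2ᶜ).card : ℝ)
      ≤ (if p.1.card < T then (2 : ℝ) ^ T / 2 ^ n else (1 / Real.sqrt T) ^ (L - T))
          * Fintype.card (Pos n → Bool) := by
    intro p hp
    refine (eqs_card p.1 p.2 _ fun i hi => mem_compl.1 hi).trans
      (mul_le_mul_of_nonneg_right ?_ (Nat.cast_nonneg _))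
    obtain ⟨h1, h2, h3⟩ := (mem_filter.1 hp).2
    obtain ⟨ha, hb⟩ := prod_atom_le p.1 p.2 h1
    split_ifs with h
    · refine ha.trans ?_
      have e : (2 : ℝ) ^ T / 2 ^ n = (1 / 2) ^ n * 2 ^ T := by
        rw [one_div, inv_pow, mul_comm, div_eq_mul_inv]
      rw [e, hN p hp]
      have e2 : (1 / 2 : ℝ) ^ (n - p.1.card + 1) = (1 / 2) ^ n * 2 ^ (p.1.card - 1) := by
        have e3 : n - p.1.card + 1 + (p.1.card - 1) = n := by omega
        have : (1 / 2 : ℝ) ^ n = (1 / 2) ^ (n - p.1.card + 1) * (1 / 2) ^ (p.1.card - 1) := by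
          rw [← pow_add, e3]
        rw [this, mul_assoc, ← mul_pow]
        norm_num
      rw [e2]
      exact mul_le_mul_of_nonneg_left (pow_le_pow_right₀ (by norm_num) (by omega)) (by positivity)
    · refine (hb T hT (not_lt.1 h)).trans ?_
      refine pow_le_pow_of_le_one (by positivity) ?_ (by rw [hN p hp]; omega)
      rw [div_le_one (Real.sqrt_pos.2 (by exact_mod_cast hT))]
      exact Real.one_le_sqrt.2 (by exact_mod_cast hT)
  have hsmall : ((univ : Finset (Finset (Fin n))).filter fun s => s.card < T).card ≤ T * n ^ T := by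
    refine le_trans (card_le_card (t := (range T).biUnion fun i => powersetCard i univ) ?_) ?_
    · intro s hs
      simpa using (mem_filter.1 hs).2
    · refine card_biUnion_le.trans (le_trans (sum_le_sum (g := fun _ => n ^ T) fun i hi => ?_) ?_)
      · rw [card_powersetCard, card_univ, Fintype.card_fin]
        exact (Nat.choose_le_pow n i).trans
          (Nat.pow_le_pow_right (by omega) (Finset.mem_range.1 hi).le)
      · simp
  have hP1 : ((P.filter fun p => p.1.card < T).card : ℝ) ≤ ((T : ℝ) * (n : ℝ) ^ T) ^ 2 := by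
    have : (P.filter fun p => p.1.card < T).card ≤ (T * n ^ T) * (T * n ^ T) := by
      refine le_trans (card_le_card (t := ((univ : Finset (Finset (Fin n))).filter
        fun s => s.card < T) ×ˢ ((univ : Finset (Finset (Fin n))).filter fun s => s.card < T)) ?_) ?_
      · intro p hp
        simp only [P, mem_filter, mem_univ, true_and, mem_product] at hp ⊢
        omega
      · rw [card_product]
        exact Nat.mul_le_mul hsmall hsmall
    calc ((P.filter fun p => p.1.card < T).card : ℝ) ≤ ((T * n ^ T) * (T * n ^ T) : ℕ) := by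
          exact_mod_cast this
      _ = _ := by push_cast; ring
  have hP2 : ((P.filter fun p => ¬ p.1.card < T).card : ℝ) ≤ (4 : ℝ) ^ n := by
    have := (P.filter fun p => ¬ p.1.card < T).card_le_univ
    rw [Fintype.card_prod, Fintype.card_finset, Fintype.card_fin, ← mul_pow] at this
    exact_mod_cast this
  calc ((sparseKernel n x).card : ℝ) ≤ ∑ p ∈ P, ((eqs p.1 p.2 p.2ᶜ).card : ℝ) := by
        exact_mod_cast (card_le_card hsub).trans card_biUnion_le
    _ ≤ ∑ p ∈ P, (if p.1.card < T then (2 : ℝ) ^ T / 2 ^ n else (1 / Real.sqrt T) ^ (L - T))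
          * Fintype.card (Pos n → Bool) := sum_le_sum hterm
    _ ≤ _ := by
        rw [← sum_mul]
        refine mul_le_mul_of_nonneg_right ?_ (Nat.cast_nonneg _)
        rw [sum_ite, sum_const, sum_const, nsmul_eq_mul, nsmul_eq_mul]
        refine add_le_add ?_ (mul_le_mul_of_nonneg_right hP2 (by positivity))
        calc _ ≤ ((T : ℝ) * (n : ℝ) ^ T) ^ 2 * ((2 : ℝ) ^ T / 2 ^ n) :=
              mul_le_mul_of_nonneg_right hP1 (by positivity)
          _ = _ := by ring

theorem sparseKernel_eventually_le {a : ℝ} (ha : 1 / 2 < a) :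
    ∀ᶠ n : ℕ in atTop, ((sparseKernel n (12 * n / Real.log n)).card : ℝ)
      ≤ a ^ n * Fintype.card (Pos n → Bool) := by
  set δ := Real.log (2 * a) / 2 with hδ
  have hδ0 : 0 < δ := by
    have : 0 < Real.log (2 * a) := Real.log_pos (by linarith)
    linarith
  have ho := isLittleO_log_rpow_atTop (show (0 : ℝ) < 1 / 2 by norm_num)
  have hcast : Tendsto (fun n : ℕ => (n : ℝ)) atTop atTop := tendsto_natCast_atTop_atTop
  have hev1 : ∀ᶠ n : ℕ in atTop, ‖Real.log n‖ ≤ min (δ / 6) (1 / 10) * ‖(n : ℝ) ^ (1 / 2 : ℝ)‖ :=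
    hcast.eventually (ho.def (by positivity))
  have hev2 : ∀ᶠ n : ℕ in atTop, 100 * Real.log 2 ≤ Real.log n :=
    (Real.tendsto_log_atTop.comp hcast).eventually_ge_atTop _
  have hev3 : ∀ᶠ n : ℕ in atTop, 2 ≤ Real.exp (δ * n) :=
    (Real.tendsto_exp_atTop.comp (hcast.const_mul_atTop hδ0)).eventually_ge_atTop _
  filter_upwards [hev1, hev2, hev3, eventually_ge_atTop 16] with n h1 h2 h3 hn
  have hn' : (16 : ℝ) ≤ n := by exact_mod_cast hn
  set l := Real.log n with hl
  set s := Real.sqrt n with hs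
  have hl0 : 0 ≤ l := Real.log_nonneg (by linarith)
  have hs0 : 0 ≤ s := Real.sqrt_nonneg _
  rw [← Real.sqrt_eq_rpow, ← hs, Real.norm_of_nonneg hl0, Real.norm_of_nonneg hs0] at h1
  have hss : s * s = n := Real.mul_self_sqrt (by linarith)
  have hsl1 : s * l ≤ δ / 6 * n := by
    have := mul_le_mul_of_nonneg_left (h1.trans
      (mul_le_mul_of_nonneg_right (min_le_left _ _) hs0)) hs0
    nlinarith
  have hsl2 : s * l ≤ 1 / 10 * n := by
    have := mul_le_mul_of_nonneg_left (h1.trans
      (mul_le_mul_of_nonneg_right (min_le_right _ _) hs0)) hs0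
    nlinarith
  set T := Nat.sqrt n with hTdef
  have hT : 1 ≤ T := Nat.sqrt_pos.2 (by omega)
  have hTle : (T : ℝ) ≤ s := by
    rw [hs, Real.le_sqrt (by positivity) (by positivity)]
    exact_mod_cast Nat.sqrt_le' n
  have hTge : s / 2 ≤ T := by
    have h4 : (n : ℝ) < ((T : ℝ) + 1) ^ 2 := by exact_mod_cast Nat.lt_succ_sqrt' n
    have h5 : s < (T : ℝ) + 1 := by
      rw [hs, Real.sqrt_lt' (by positivity)]; exact h4
    have h6 : (1 : ℝ) ≤ T := by exact_mod_cast hT
    linarith
  set L := ⌈12 * (n : ℝ) / l⌉₊ with hLdef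
  refine (sparseKernel_card_le n (by omega) T L hT _ fun z hz => Nat.ceil_le.2 hz).trans
    (mul_le_mul_of_nonneg_right ?_ (Nat.cast_nonneg _))
  have hlT0 : 0 ≤ Real.log T := Real.log_nonneg (by exact_mod_cast hT)
  have hlog2 : 0 < Real.log 2 := Real.log_pos (by norm_num)
  have hlog2' := Real.log_two_lt_d9
  have hlog2'' := Real.log_two_gt_d9
  have hTpos : (0 : ℝ) < T := by exact_mod_cast hT
  have hlTup : Real.log T ≤ l := by
    refine Real.log_le_log hTpos ?_
    exact_mod_cast Nat.sqrt_le_self n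
  have hlTlow : l / 2 - Real.log 2 ≤ Real.log T := by
    calc l / 2 - Real.log 2 = Real.log (s / 2) := by
          rw [Real.log_div (by rw [hs]; positivity) (by norm_num), hs, Real.log_sqrt (by linarith), hl]
      _ ≤ Real.log T := Real.log_le_log (by rw [hs]; positivity) hTge
  have hfirst : ((T : ℝ) * (n : ℝ) ^ T) ^ 2 * (2 : ℝ) ^ T / 2 ^ n
      ≤ Real.exp (δ * n) * (1 / 2) ^ n := by
    rw [div_eq_mul_inv, one_div, inv_pow]
    refine mul_le_mul_of_nonneg_right ?_ (by positivity)
    rw [← Real.log_le_iff_le_exp (by positivity), Real.log_mul (by positivity) (by positivity),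
      Real.log_pow, Real.log_mul (by positivity) (by positivity), Real.log_pow, Real.log_pow, ← hl]
    have hT1 : (1 : ℝ) ≤ T := by exact_mod_cast hT
    have : Real.log 2 ≤ l := by linarith
    push_cast
    nlinarith [mul_le_mul hTle (le_refl l) hl0 hs0]
  have hsecond : (4 : ℝ) ^ n * (1 / Real.sqrt T) ^ (L - T) ≤ (1 / 2) ^ n := by
    have hLT : 12 * (n : ℝ) / l - s ≤ ((L - T : ℕ) : ℝ) := by
      have hc : 12 * (n : ℝ) / l ≤ L := Nat.le_ceil _
      have : (L : ℝ) ≤ ((L - T : ℕ) : ℝ) + T := by exact_mod_cast (by omega : L ≤ L - T + T)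
      linarith
    have hlpos : 0 < l := by linarith
    rw [← Real.log_le_log_iff (by positivity) (by positivity), Real.log_mul (by positivity)
      (by positivity), Real.log_pow, Real.log_pow, Real.log_pow, Real.log_div one_ne_zero
      (by positivity), Real.log_one, Real.log_sqrt hTpos.le, zero_sub, one_div, Real.log_inv,
      show Real.log 4 = 2 * Real.log 2 by
        rw [show (4 : ℝ) = 2 ^ 2 by norm_num, Real.log_pow]; norm_num]
    have hq : (12 * (n : ℝ) / l) * l = 12 * n := by field_simp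
    have hb : (12 * (n : ℝ) / l - s) * (l / 2 - Real.log 2) ≤ ((L - T : ℕ) : ℝ) * Real.log T :=
      mul_le_mul hLT hlTlow (by linarith) (Nat.cast_nonneg _)
    have hq2 : 12 * (n : ℝ) / l * Real.log 2 ≤ 12 * n / 100 := by
      rw [div_mul_eq_mul_div, div_le_iff₀ hlpos]
      nlinarith
    nlinarith
  calc ((T : ℝ) * (n : ℝ) ^ T) ^ 2 * (2 : ℝ) ^ T / 2 ^ n
        + (4 : ℝ) ^ n * (1 / Real.sqrt T) ^ (L - T)
      ≤ Real.exp (δ * n) * (1 / 2) ^ n + (1 / 2) ^ n := add_le_add hfirst hsecond
    _ ≤ Real.exp (δ * n) * Real.exp (δ * n) * (1 / 2) ^ n := by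
        have hE : Real.exp (δ * n) + 1 ≤ Real.exp (δ * n) * Real.exp (δ * n) := by nlinarith
        have := mul_le_mul_of_nonneg_right hE (le_of_lt (pow_pos (show (0 : ℝ) < 1 / 2 by norm_num) n))
        linarith
    _ = a ^ n := by
        rw [← Real.exp_add, show δ * n + δ * n = n * Real.log (2 * a) by rw [hδ]; ring,
          Real.exp_nat_mul, Real.exp_log (by linarith), ← mul_pow]
        congr 1
        ring

theorem sparseKernel_eventually_ge :
    ∀ᶠ n : ℕ in atTop, ((Fintype.card (Pos n → Bool) : ℕ) : ℝ)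
      ≤ 2 ^ n * ((sparseKernel n (12 * n / Real.log n)).card : ℝ) := by
  classical
  have hcast : Tendsto (fun n : ℕ => (n : ℝ)) atTop atTop := tendsto_natCast_atTop_atTop
  filter_upwards [(Real.tendsto_log_atTop.comp hcast).eventually_ge_atTop 24,
    eventually_ge_atTop 4] with n hlog hn
  simp only [Function.comp] at hlog
  let i0 : Fin n := ⟨0, by omega⟩
  let i1 : Fin n := ⟨1, by omega⟩
  let C : Finset (Pos n) := univ.image (key i1)
  let src : Pos n → Fin n := fun u =>
    if u.1.1 = i1 then (if (u.1.2 : ℕ) ≤ 1 then i0 else u.1.2) else i0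
  let φ : (Pos n → Bool) → (Pos n → Bool) := fun ω u => if u ∈ C then ω (key i0 (src u)) else ω u
  have hsrc : ∀ j : Fin n, src (key i1 j) = if (j : ℕ) ≤ 1 then i0 else j := by
    intro j
    simp only [src, key]
    by_cases h : i1 ≤ j
    · simp [h]
    · rw [dif_neg h]
      have h0 : (j : ℕ) = 0 := by
        simp only [i1, Fin.le_def, not_le] at h
        omega
      simp [i1, Fin.ext_iff, h0]
  have hrow : ∀ ω j, ent (φ ω) i0 j = ent (φ ω) i1 j := by
    intro ω j
    have hC : key i1 j ∈ C := mem_image.2 ⟨j, mem_univ _, rfl⟩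
    unfold ent
    by_cases hj : key i0 j ∈ C
    · obtain ⟨c, -, hc⟩ := mem_image.1 hj
      rcases (key_eq_iff i1 c i0 j).1 hc with ⟨h, _⟩ | ⟨h, h'⟩
      · simp [i0, i1, Fin.ext_iff] at h
      · simp only [φ, if_pos hj, if_pos hC]
        rw [hsrc, ← hc, hsrc]
        subst h h'
        simp [i0, i1]
    · simp only [φ, if_neg hj, if_pos hC, hsrc]
      split_ifs with h
      · have : j = i0 := by
          rcases Nat.eq_zero_or_pos (j : ℕ) with h0 | h0
          · exact Fin.ext h0
          · exfalso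
            refine hj (mem_image.2 ⟨i0, mem_univ _, (key_eq_iff _ _ _ _).2 (Or.inr ⟨?_, rfl⟩)⟩)
            exact Fin.ext (show 1 = (j : ℕ) by omega)
        rw [this]
      · rfl
  have hmem : ∀ ω, φ ω ∈ sparseKernel n (12 * n / Real.log n) := by
    intro ω
    refine mem_filter.2 ⟨mem_univ _, Pi.single i0 1 - Pi.single i1 1, ?_, fun i => ?_, ?_⟩
    · intro h
      have := congrFun h i0
      simp [i0, i1, Fin.ext_iff] at this
    · have hs : ∀ j, ent (φ ω) i j = ent (φ ω) j i := fun j => by unfold ent; rw [key_comm]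
      simp [mul_sub, sum_sub_distrib, Pi.single_apply, hs i0, hs i1, hrow]
    · have hz : n - 2 ≤ Nat.card {j : Fin n //
          (Pi.single i0 (1 : ℝ) - Pi.single i1 1 : Fin n → ℝ) j = 0} := by
        rw [Nat.card_eq_fintype_card, Fintype.card_subtype]
        calc n - 2 ≤ (univ \ ({i0, i1} : Finset (Fin n))).card := by
              have := card_le_two (a := i0) (b := i1)
              rw [card_sdiff_of_subset (subset_univ _), card_univ, Fintype.card_fin]
              omega
          _ ≤ _ := by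
              refine card_le_card fun j hj => ?_
              rw [Finset.mem_sdiff, Finset.mem_insert, Finset.mem_singleton, not_or] at hj
              rw [mem_filter, Pi.sub_apply, Pi.single_eq_of_ne hj.2.1, Pi.single_eq_of_ne hj.2.2, sub_zero]
              exact ⟨mem_univ _, rfl⟩
      have hz' : ((n - 2 : ℕ) : ℝ) ≤ _ := Nat.cast_le.2 hz
      refine le_trans ?_ hz'
      rw [Nat.cast_sub (by omega)]
      push_cast
      rw [div_le_iff₀ (by linarith)]
      have : (4 : ℝ) ≤ n := by exact_mod_cast hn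
      nlinarith
  have hcard : (univ : Finset (Pos n → Bool)).card
      ≤ 2 ^ n * (sparseKernel n (12 * n / Real.log n)).card := by
    refine le_trans (card_le_mul_card_image _ (2 ^ n) fun b hb => ?_)
      (Nat.mul_le_mul_left _ (card_le_card (t := sparseKernel n (12 * n / Real.log n))
        (s := univ.image φ) fun b hb => by
          obtain ⟨ω, -, rfl⟩ := mem_image.1 hb
          exact hmem ω))
    have hinj : Set.InjOn (fun (y : Pos n → Bool) (j : Fin n) => y (key i1 j))
        (univ.filter fun y => φ y = b) := by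
      intro y hy z hz hyz
      funext u
      by_cases hu : u ∈ C
      · obtain ⟨j, -, rfl⟩ := mem_image.1 hu
        exact congrFun hyz j
      · have := congrFun ((mem_filter.1 hy).2.trans (mem_filter.1 hz).2.symm) u
        simpa [φ, hu] using this
    rw [← card_image_of_injOn hinj]
    refine (card_le_univ _).trans ?_
    simp
  rw [card_univ] at hcard
  exact_mod_cast hcard

end Vale.Agent.P160
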