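import Mathlib

/-! Littlewood-Offord bound on one slice of the cube. -/

namespace Vale.Agent.P160

open Finset

/-- Sign of a bit. -/
noncomputable def bitSign (b : Bool) : ℝ := if b then 1 else -1

/-- Largest atom of a sum of `m` signs with nonzero coefficients. -/
noncomputable def atom (m : ℕ) : ℝ := (m.choose (m / 2) : ℝ) / 2 ^ m

theorem atom_nonneg (m : ℕ) : 0 ≤ atom m := by unfold atom; positivity

theorem signed_sum_card {ι : Type*} [Fintype ι] [DecidableEq ι] (c : ι → ℝ) (hc : ∀ i, c i ≠ 0)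
    (𝒜 : Finset (ι → Bool))
    (h : ∀ x ∈ 𝒜, ∀ y ∈ 𝒜, ∑ i, c i * bitSign (x i) = ∑ i, c i * bitSign (y i)) :
    𝒜.card ≤ (Fintype.card ι).choose (Fintype.card ι / 2) := by
  let φ : (ι → Bool) → Finset ι := fun x => univ.filter fun i => (x i = true ↔ 0 < c i)
  have hφ : Function.Injective φ := by
    intro x y hxy
    funext i
    have := Finset.ext_iff.1 hxy i
    simp only [φ, mem_filter, mem_univ, true_and] at this
    by_cases h0 : 0 < c i <;> simp only [h0, iff_true, iff_false] at this <;>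
      revert this <;> cases x i <;> cases y i <;> simp
  rw [← card_image_of_injective 𝒜 hφ]
  refine IsAntichain.sperner ?_
  intro s hs t ht hne hsub
  obtain ⟨x, hx, rfl⟩ := mem_image.1 hs
  obtain ⟨y, hy, rfl⟩ := mem_image.1 ht
  have hval : ∀ (z : ι → Bool) i, c i * bitSign (z i) = if i ∈ φ z then |c i| else -|c i| := by
    intro z i
    rcases lt_or_gt_of_ne (hc i) with h0 | h0 <;>
      cases hz : z i <;> simp [φ, bitSign, hz, h0, h0.not_gt, abs_of_neg, abs_of_pos]
  have hlt : ∑ i, c i * bitSign (x i) < ∑ i, c i * bitSign (y i) := by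
    obtain ⟨i, hi, hix⟩ := Finset.exists_of_ssubset (hsub.ssubset_of_ne hne)
    refine sum_lt_sum (fun j _ => ?_) ⟨i, mem_univ i, ?_⟩
    · rw [hval, hval]
      by_cases hj : j ∈ φ x
      · rw [if_pos hj, if_pos (hsub hj)]
      · rw [if_neg hj]
        split_ifs
        · linarith [abs_nonneg (c j)]
        · exact le_rfl
    · rw [hval, hval, if_neg hix, if_pos hi]
      linarith [abs_pos.2 (hc i)]
  exact absurd (h x hx y hy) hlt.ne

/-- One more equation, with fresh coordinates `F`, costs the largest share `B` of a slice. -/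
theorem slice_bound {U : Type*} [Fintype U] [DecidableEq U] (F : Finset U)
    (G G' : Finset (U → Bool)) (hsub : G' ⊆ G)
    (hG : ∀ x ∈ G, ∀ y : U → Bool, (∀ u, u ∉ F → y u = x u) → y ∈ G)
    (B : ℝ) (hB0 : 0 ≤ B) (c : (U → Bool) → U → ℝ)
    (hB : ∀ x ∈ G', ∀ 𝒜 : Finset (F → Bool),
      (∀ a ∈ 𝒜, ∀ b ∈ 𝒜,
        ∑ u : F, c x u * bitSign (a u) = ∑ u : F, c x u * bitSign (b u)) →
      (𝒜.card : ℝ) ≤ B * 2 ^ F.card)
    (heq : ∀ x ∈ G', ∀ y ∈ G', (∀ u, u ∉ F → y u = x u) →
      ∑ u ∈ F, c x u * bitSign (x u) = ∑ u ∈ F, c x u * bitSign (y u)) :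
    (G'.card : ℝ) ≤ B * G.card := by
  classical
  let r : (U → Bool) → ({u // u ∉ F} → Bool) := fun x u => x u
  have hG' : (G'.card : ℝ) ≤ B * 2 ^ F.card * (G.image r).card := by
    calc (G'.card : ℝ) = ∑ b ∈ G'.image r, ((G'.filter fun y => r y = b).card : ℝ) := by
          exact_mod_cast card_eq_sum_card_image r G'
      _ ≤ ∑ _b ∈ G'.image r, B * 2 ^ F.card := by
          refine sum_le_sum fun b hb => ?_
          obtain ⟨x, hx, rfl⟩ := mem_image.1 hb
          have hinj : Set.InjOn (fun (y : U → Bool) (u : F) => y u)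
              (G'.filter fun y => r y = r x) := by
            intro y hy z hz hyz
            funext u
            by_cases hu : u ∈ F
            · exact congrFun hyz ⟨u, hu⟩
            · exact (congrFun ((mem_filter.1 hy).2.trans (mem_filter.1 hz).2.symm) ⟨u, hu⟩)
          rw [← card_image_of_injOn hinj]
          refine hB x hx _ ?_
          have key : ∀ y ∈ G'.filter (fun y => r y = r x),
              ∑ u : F, c x u * bitSign (y u) = ∑ u : F, c x u * bitSign (x u) := by
            intro y hy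
            rw [mem_filter] at hy
            rw [Finset.sum_coe_sort F (fun u => c x u * bitSign (y u)),
              Finset.sum_coe_sort F (fun u => c x u * bitSign (x u))]
            exact (heq x hx y hy.1 fun u hu => congrFun hy.2 ⟨u, hu⟩).symm
          intro a ha b hb
          obtain ⟨y, hy, rfl⟩ := mem_image.1 ha
          obtain ⟨z, hz, rfl⟩ := mem_image.1 hb
          rw [key y hy, key z hz]
      _ ≤ _ := by
          rw [sum_const, nsmul_eq_mul, mul_comm]
          gcongr
  have hGc : G.card = (G.image r).card * 2 ^ F.card := by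
    rw [card_eq_sum_card_image r G, ← smul_eq_mul, ← sum_const]
    refine sum_congr rfl fun b hb => ?_
    obtain ⟨x, hx, rfl⟩ := mem_image.1 hb
    rw [← Fintype.card_coe F, ← Fintype.card_bool, ← Fintype.card_fun, ← card_univ]
    refine card_bij (fun y _ (u : F) => y u) (fun _ _ => mem_univ _) ?_ ?_
    · intro y hy z hz hyz
      funext u
      by_cases hu : u ∈ F
      · exact congrFun hyz ⟨u, hu⟩
      · exact (congrFun ((mem_filter.1 hy).2.trans (mem_filter.1 hz).2.symm) ⟨u, hu⟩)
    · intro b _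
      refine ⟨fun u => if h : u ∈ F then b ⟨u, h⟩ else x u, mem_filter.2 ⟨hG x hx _ ?_, ?_⟩, ?_⟩
      · intro u hu; simp [hu]
      · funext u; simp [r, u.2]
      · funext u; simp
  rw [hGc]
  push_cast
  linarith

/-- One more equation, with fresh coordinates `F`, costs a factor `atom F.card`. -/
theorem slice_card {U : Type*} [Fintype U] [DecidableEq U] (F : Finset U)
    (G G' : Finset (U → Bool)) (hsub : G' ⊆ G)
    (hG : ∀ x ∈ G, ∀ y : U → Bool, (∀ u, u ∉ F → y u = x u) → y ∈ G)
    (c : (U → Bool) → U → ℝ) (hc : ∀ x ∈ G', ∀ u ∈ F, c x u ≠ 0)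
    (heq : ∀ x ∈ G', ∀ y ∈ G', (∀ u, u ∉ F → y u = x u) →
      ∑ u ∈ F, c x u * bitSign (x u) = ∑ u ∈ F, c x u * bitSign (y u)) :
    (G'.card : ℝ) ≤ atom F.card * G.card := by
  classical
  refine slice_bound F G G' hsub hG _ (atom_nonneg _) c (fun x hx 𝒜 h => ?_) heq
  have := signed_sum_card (fun u : F => c x u) (fun u => hc x hx u u.2) 𝒜 h
  rw [Fintype.card_coe] at this
  rw [atom, div_mul_cancel₀ _ (by positivity)]
  exact_mod_cast this

theorem atom_le_half {m : ℕ} (hm : 1 ≤ m) : atom m ≤ 1 / 2 := by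
  obtain ⟨l, rfl⟩ : ∃ l, m = l + 1 := ⟨m - 1, by omega⟩
  unfold atom
  have : (l + 1).choose ((l + 1) / 2) ≤ 2 ^ l := by
    rcases Nat.eq_zero_or_pos ((l + 1) / 2) with h | h
    · rw [h]; simp [Nat.one_le_two_pow]
    · obtain ⟨i, hi⟩ : ∃ i, (l + 1) / 2 = i + 1 := ⟨(l + 1) / 2 - 1, by omega⟩
      rw [hi, Nat.choose_succ_succ]
      calc l.choose i + l.choose (i + 1) = ∑ j ∈ ({i, i + 1} : Finset ℕ), l.choose j := by
            rw [sum_pair (by omega)]
        _ ≤ ∑ j ∈ range (l + 1), l.choose j := by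
            refine sum_le_sum_of_subset fun j hj => ?_
            simp only [mem_insert, mem_singleton] at hj
            simp only [Finset.mem_range]
            omega
        _ = 2 ^ l := Nat.sum_range_choose l
  rw [div_le_div_iff₀ (by positivity) two_pos, pow_succ]
  have h' : ((l + 1).choose ((l + 1) / 2) : ℝ) ≤ 2 ^ l := by exact_mod_cast this
  linarith

theorem centralBinom_sq_le (j : ℕ) : (Nat.centralBinom j) ^ 2 * (2 * j + 1) ≤ 16 ^ j := by
  induction j with
  | zero => simp
  | succ j ih =>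
    refine Nat.le_of_mul_le_mul_left ?_ (show 0 < (j + 1) ^ 2 by positivity)
    have e : (j + 1) ^ 2 * (Nat.centralBinom (j + 1) ^ 2 * (2 * (j + 1) + 1))
        = 4 * ((2 * j + 1) * (2 * j + 3)) * (Nat.centralBinom j ^ 2 * (2 * j + 1)) := by
      rw [← mul_assoc, ← mul_pow, Nat.succ_mul_centralBinom_succ]; ring
    rw [e, pow_succ]
    calc 4 * ((2 * j + 1) * (2 * j + 3)) * (Nat.centralBinom j ^ 2 * (2 * j + 1))
        ≤ 4 * (4 * (j + 1) ^ 2) * 16 ^ j :=
          Nat.mul_le_mul (Nat.mul_le_mul_left 4 (by nlinarith)) ih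
      _ = (j + 1) ^ 2 * (16 ^ j * 16) := by ring

theorem atom_sq_le (m : ℕ) : atom m ^ 2 * (m + 1) ≤ 1 := by
  rcases Nat.even_or_odd m with ⟨j, hj⟩ | ⟨j, hj⟩
  · subst hj
    have h := centralBinom_sq_le j
    rw [Nat.centralBinom_eq_two_mul_choose] at h
    unfold atom
    rw [show (j + j) / 2 = j by omega, show j + j = 2 * j by omega, div_pow, div_mul_eq_mul_div,
      div_le_one (by positivity), ← pow_mul, show (2 : ℝ) ^ (2 * j * 2) = 16 ^ j by
        rw [show 2 * j * 2 = 4 * j by ring, pow_mul]; norm_num]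
    exact_mod_cast h
  · subst hj
    have h := centralBinom_sq_le (j + 1)
    rw [Nat.centralBinom_eq_two_mul_choose, show 2 * (j + 1) = 2 * j + 1 + 1 by ring,
      Nat.choose_succ_succ, Nat.choose_symm_half] at h
    unfold atom
    rw [show (2 * j + 1) / 2 = j by omega, div_pow, div_mul_eq_mul_div, div_le_one (by positivity),
      ← pow_mul]
    have h' : ((((2 * j + 1).choose j + (2 * j + 1).choose j) ^ 2 * (2 * j + 1 + 1 + 1) : ℕ) : ℝ)
        ≤ ((16 ^ (j + 1) : ℕ) : ℝ) := by exact_mod_cast h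
    push_cast at h'
    have e : (2 : ℝ) ^ ((2 * j + 1) * 2) * 4 = 16 ^ (j + 1) := by
      rw [show (2 * j + 1) * 2 = 4 * j + 2 by ring, pow_add, pow_mul, pow_succ]; ring
    push_cast
    nlinarith [sq_nonneg ((2 * j + 1).choose j : ℝ)]

end Vale.Agent.P160
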