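import Vale.Agent.P160.Walk

/-! Counting the extensions of a vector modulo a prime which keep its sums concentrated. -/

namespace Vale.Agent.P160

open Finset
open scoped Pointwise

variable {n p : ℕ} [Fact p.Prime]

/-- Shifts `z` moving the distribution by at most `collide / 4096`. -/
noncomputable def almostPeriods (J : Finset (Fin n)) (v : Fin n → ZMod p) : Finset (ZMod p) :=
  univ.filter fun z => shiftGap J v z ≤ collide J v / 4096

/-- Sums of `i` almost periods. -/
noncomputable def periodSums (J : Finset (Fin n)) (v : Fin n → ZMod p) : ℕ → Finset (ZMod p)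
  | 0 => {0}
  | i + 1 => periodSums J v i + almostPeriods J v

theorem zero_mem_almostPeriods (J : Finset (Fin n)) (v : Fin n → ZMod p) :
    0 ∈ almostPeriods J v := by
  refine mem_filter.2 ⟨mem_univ _, ?_⟩
  have : shiftGap J v 0 = 0 := by simp [shiftGap]
  rw [this]
  linarith [collide_pos J v]

theorem periodSums_gap (J : Finset (Fin n)) (v : Fin n → ZMod p) :
    ∀ i : ℕ, ∀ z ∈ periodSums J v i, shiftGap J v z ≤ (i : ℝ) ^ 2 * (collide J v / 4096) := by
  intro i
  induction i with
  | zero => intro z hz; simp only [periodSums, mem_singleton] at hz; simp [hz, shiftGap]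
  | succ i ih =>
    intro z hz
    simp only [periodSums] at hz
    obtain ⟨y, hy, h, hh, rfl⟩ := mem_add.1 hz
    have hgap := (mem_filter.1 hh).2
    rcases Nat.eq_zero_or_pos i with rfl | hi
    · simp only [periodSums, mem_singleton] at hy
      subst hy
      simpa using hgap
    · have hi' : (0 : ℝ) < i := by exact_mod_cast hi
      have := shiftGap_add J v y h (t := 1 / (i : ℝ)) (by positivity)
      rw [one_div_one_div] at this
      have e : (1 + 1 / (i : ℝ)) * ((i : ℝ) ^ 2 * (collide J v / 4096))
          + (1 + (i : ℝ)) * (collide J v / 4096) = ((i : ℝ) + 1) ^ 2 * (collide J v / 4096) := by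
        field_simp; ring
      have h1 := mul_le_mul_of_nonneg_left (ih y hy) (show (0 : ℝ) ≤ 1 + 1 / (i : ℝ) by positivity)
      have h2 := mul_le_mul_of_nonneg_left hgap (show (0 : ℝ) ≤ 1 + (i : ℝ) by positivity)
      push_cast
      linarith

theorem periodSums_card (J : Finset (Fin n)) (v : Fin n → ZMod p) :
    ∀ i : ℕ, min p (i * ((almostPeriods J v).card - 1) + 1) ≤ (periodSums J v i).card
  | 0 => by simp [periodSums]
  | i + 1 => by
    have ih := periodSums_card J v i
    have hH : 1 ≤ (almostPeriods J v).card := card_pos.2 ⟨0, zero_mem_almostPeriods J v⟩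
    have hp : 1 ≤ p := (Fact.out : p.Prime).one_le
    have hne : (periodSums J v i).Nonempty := card_pos.1 (by omega)
    have h := ZMod.cauchy_davenport (Fact.out : p.Prime) hne ⟨0, zero_mem_almostPeriods J v⟩
    simp only [periodSums]
    have e : (i + 1) * ((almostPeriods J v).card - 1)
        = i * ((almostPeriods J v).card - 1) + ((almostPeriods J v).card - 1) := by ring
    omega

/-- There are few almost periods. -/
theorem almostPeriods_bound_aux (i : ℕ) (hi : (i : ℝ) ^ 2 ≤ 4096) (J : Finset (Fin n)) (v : Fin n → ZMod p)
    (hp : 2 < (p : ℝ) * collide J v) :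
    ((i * ((almostPeriods J v).card - 1) + 1 : ℕ) : ℝ) * collide J v ≤ 2 := by
  have hρ := collide_pos J v
  have hle : ((periodSums J v i).card : ℝ) * collide J v ≤ 2 := by
    have hz : ∀ z ∈ periodSums J v i, collide J v / 2 ≤ autoCorr J v z := by
      intro z hz
      have h1 := periodSums_gap J v i z hz
      rw [shiftGap_eq] at h1
      have h2 := mul_le_mul_of_nonneg_right hi (show (0 : ℝ) ≤ collide J v / 4096 by linarith)
      linarith
    have := (card_nsmul_le_sum _ _ _ hz).trans
      (sum_le_univ_sum_of_nonneg fun z => autoCorr_nonneg J v z)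
    rw [autoCorr_sum, nsmul_eq_mul] at this
    linarith
  have hmin := periodSums_card J v i
  rcases le_or_gt (i * ((almostPeriods J v).card - 1) + 1) p with h | h
  · rw [min_eq_right h] at hmin
    exact (mul_le_mul_of_nonneg_right (Nat.cast_le.2 hmin) hρ.le).trans hle
  · rw [min_eq_left h.le] at hmin
    have : (p : ℝ) * collide J v ≤ 2 :=
      (mul_le_mul_of_nonneg_right (Nat.cast_le.2 hmin) hρ.le).trans hle
    linarith

theorem almostPeriods_bound (J : Finset (Fin n)) (v : Fin n → ZMod p)
    (hp : 2 < (p : ℝ) * collide J v) :
    ((64 * ((almostPeriods J v).card - 1) + 1 : ℕ) : ℝ) * collide J v ≤ 2 :=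
  almostPeriods_bound_aux 64 (by norm_num) J v hp

/-- Nonzero values which keep the sums concentrated. -/
noncomputable def stableVals (J : Finset (Fin n)) (v : Fin n → ZMod p) : Finset (ZMod p) :=
  univ.filter fun a => a ≠ 0 ∧ shiftGap J v (2 * a) ≤ collide J v / 4096

theorem stableVals_card (J : Finset (Fin n)) (v : Fin n → ZMod p) (h2 : (2 : ZMod p) ≠ 0) :
    (stableVals J v).card + 1 ≤ (almostPeriods J v).card := by
  classical
  have h0 : (0 : ZMod p) ∉ (stableVals J v).image (2 * ·) := by
    simp [stableVals, h2]
  rw [← card_image_of_injective (stableVals J v) (mul_right_injective₀ h2),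
    ← card_insert_of_notMem h0]
  refine card_le_card fun z hz => ?_
  rcases mem_insert.1 hz with rfl | hz
  · exact zero_mem_almostPeriods J v
  · obtain ⟨a, ha, rfl⟩ := mem_image.1 hz
    exact mem_filter.2 ⟨mem_univ _, (mem_filter.1 ha).2.2⟩

theorem stableVals_weight (J : Finset (Fin n)) (v : Fin n → ZMod p) (h2 : (2 : ZMod p) ≠ 0)
    (hp : 2 < (p : ℝ) * collide J v) :
    ((stableVals J v).card : ℝ) * collide J v ≤ 1 / 32 := by
  have h := almostPeriods_bound J v hp
  have hs : (stableVals J v).card * 64 ≤ 64 * ((almostPeriods J v).card - 1) + 1 := by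
    have := stableVals_card J v h2
    omega
  have := (mul_le_mul_of_nonneg_right (Nat.cast_le.2 hs) (collide_pos J v).le).trans h
  push_cast at this
  linarith

theorem stableVals_congr (J : Finset (Fin n)) {v w : Fin n → ZMod p} (h : ∀ j ∈ J, v j = w j) :
    stableVals J v = stableVals J w := by
  ext a
  rw [stableVals, stableVals, mem_filter, mem_filter]
  simp [shiftGap, collide_congr J h, sumDist_congr J h]

/-- Outside the stable values the collision probability drops. -/
theorem collide_insert_unstable {J : Finset (Fin n)} {a : Fin n} (ha : a ∉ J)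
    (v : Fin n → ZMod p) (hva : v a ≠ 0) (hs : v a ∉ stableVals J v) :
    collide (insert a J) v ≤ (1 - 1 / 16384) * collide J v := by
  simp only [stableVals, mem_filter, mem_univ, true_and, not_and, not_le] at hs
  rw [collide_insert ha]
  linarith [hs hva]

/-- Many nonzero coefficients make collisions unlikely. -/
theorem collide_decay (v : Fin n → ZMod p) (h2 : (2 : ZMod p) ≠ 0) (hp : 64 ≤ p)
    (J : Finset (Fin n)) (hJ : ∀ j ∈ J, v j ≠ 0) :
    collide J v ≤ max (1 / 32) ((1 - 1 / 16384) ^ J.card) := by
  induction J using Finset.induction_on with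
  | empty => simp [collide_empty]
  | insert a J ha ih =>
    have ih' := ih fun j hj => hJ j (mem_insert_of_mem hj)
    rcases le_or_gt (collide J v) (1 / 32) with h | h
    · exact ((collide_insert_le ha v).trans h).trans (le_max_left _ _)
    have hpρ : 2 < (p : ℝ) * collide J v := by
      have : (64 : ℝ) ≤ p := by exact_mod_cast hp
      nlinarith
    have hempty : v a ∉ stableVals J v := by
      intro hmem
      have h1 := stableVals_weight J v h2 hpρ
      have h3 : (1 : ℝ) ≤ (stableVals J v).card := by exact_mod_cast card_pos.2 ⟨_, hmem⟩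
      nlinarith
    refine (collide_insert_unstable ha v (hJ a (mem_insert_self a J)) hempty).trans
      (le_max_of_le_right ?_)
    rw [card_insert_of_notMem ha, pow_succ']
    refine mul_le_mul_of_nonneg_left ?_ (by norm_num)
    rcases max_choice (1 / 32 : ℝ) ((1 - 1 / 16384) ^ J.card) with e | e <;> rw [e] at ih' <;>
      linarith

/-- The values `c` in every coordinate of `S` are nonzero and the others vanish. -/
noncomputable def onSupport (S : Finset (Fin n)) : Finset (Fin n → ZMod p) :=
  Fintype.piFinset fun j => if j ∈ S then univ.erase 0 else {0}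

/-- Every other element of `S`, starting from the least. -/
def evenPart (S : Finset (Fin n)) : Finset (Fin n) :=
  S.filter fun i => Odd (S.filter fun j => j ≤ i).card

/-- The remaining elements of `S`. -/
def oddPart (S : Finset (Fin n)) : Finset (Fin n) :=
  S.filter fun i => ¬ Odd (S.filter fun j => j ≤ i).card

theorem disjoint_parts (S : Finset (Fin n)) : Disjoint (evenPart S) (oddPart S) :=
  disjoint_filter_filter_not S S _

theorem union_parts (S : Finset (Fin n)) : evenPart S ∪ oddPart S = S :=
  filter_union_filter_not_eq _ S

theorem filter_le_insert {a : Fin n} {S : Finset (Fin n)} (h : ∀ x ∈ S, a < x) {i : Fin n}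
    (hi : i ∈ S) : ((insert a S).filter fun j => j ≤ i).card = (S.filter fun j => j ≤ i).card + 1 := by
  rw [filter_insert, if_pos (h i hi).le, card_insert_of_notMem]
  exact fun hm => lt_irrefl _ (h a (mem_filter.1 hm).1)

theorem filter_le_insert_self {a : Fin n} {S : Finset (Fin n)} (h : ∀ x ∈ S, a < x) :
    ((insert a S).filter fun j => j ≤ a).card = 1 := by
  rw [filter_insert, if_pos le_rfl, filter_false_of_mem fun x hx => not_le.2 (h x hx)]
  simp

theorem evenPart_insert {a : Fin n} {S : Finset (Fin n)} (h : ∀ x ∈ S, a < x) :
    evenPart (insert a S) = insert a (oddPart S) := by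
  unfold evenPart oddPart
  conv_lhs => rw [filter_insert, if_pos (by rw [filter_le_insert_self h]; exact odd_one)]
  congr 1
  refine filter_congr fun i hi => ?_
  rw [filter_le_insert h hi, Nat.odd_add_one]

theorem oddPart_insert {a : Fin n} {S : Finset (Fin n)} (h : ∀ x ∈ S, a < x) :
    oddPart (insert a S) = evenPart S := by
  unfold evenPart oddPart
  conv_lhs => rw [filter_insert, if_neg (by rw [filter_le_insert_self h]; simp)]
  refine filter_congr fun i hi => ?_
  rw [filter_le_insert h hi, Nat.odd_add_one, not_not]

/-- The bound for a signed sum over `S` from its two interleaved halves. -/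
noncomputable def rowBound (S : Finset (Fin n)) (v : Fin n → ZMod p) : ℝ :=
  Real.sqrt (collide (evenPart S) v * collide (oddPart S) v)

theorem sumDist_le_rowBound (S : Finset (Fin n)) (v : Fin n → ZMod p) (x : ZMod p) :
    sumDist S v x ≤ rowBound S v := by
  refine Real.le_sqrt_of_sq_le ?_
  have := sumDist_sq_le (evenPart S) (oddPart S) (disjoint_parts S) v x
  rwa [union_parts] at this

/-- Product of the bounds for the rows inside the support. -/
noncomputable def innerBound (S : Finset (Fin n)) (v : Fin n → ZMod p) : ℝ :=
  ∏ i ∈ S, rowBound (S.filter fun j => i ≤ j) v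

/-- The weight carried by the induction. -/
noncomputable def potential (m : ℕ) (S : Finset (Fin n)) (v : Fin n → ZMod p) : ℝ :=
  innerBound S v * Real.sqrt (collide (evenPart S) v)
    * (collide (evenPart S) v * collide (oddPart S) v) ^ m

theorem innerBound_nonneg (S : Finset (Fin n)) (v : Fin n → ZMod p) : 0 ≤ innerBound S v :=
  prod_nonneg fun _ _ => Real.sqrt_nonneg _

theorem potential_nonneg (m : ℕ) (S : Finset (Fin n)) (v : Fin n → ZMod p) :
    0 ≤ potential m S v :=
  mul_nonneg (mul_nonneg (innerBound_nonneg S v) (Real.sqrt_nonneg _))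
    (pow_nonneg (mul_nonneg (collide_pos _ _).le (collide_pos _ _).le) _)

theorem potential_congr (m : ℕ) (S : Finset (Fin n)) {v w : Fin n → ZMod p}
    (h : ∀ j ∈ S, v j = w j) : potential m S v = potential m S w := by
  have hc : ∀ T : Finset (Fin n), T ⊆ S → collide T v = collide T w := fun T hT =>
    collide_congr T fun j hj => h j (hT hj)
  have hi : innerBound S v = innerBound S w := by
    refine prod_congr rfl fun i _ => ?_
    unfold rowBound
    rw [hc (evenPart _) ((filter_subset _ _).trans (filter_subset _ _)),
      hc (oddPart _) ((filter_subset _ _).trans (filter_subset _ _))]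
  unfold potential
  rw [hi, hc _ (show evenPart S ⊆ S from filter_subset _ _),
    hc _ (show oddPart S ⊆ S from filter_subset _ _)]

theorem potential_step (m : ℕ) {a : Fin n} {S : Finset (Fin n)} (h : ∀ x ∈ S, a < x)
    (v : Fin n → ZMod p) :
    potential m (insert a S) v * collide (oddPart S) v ^ m
      = potential m S v * collide (insert a (oddPart S)) v ^ (m + 1) := by
  have ha : a ∉ S := fun hm => lt_irrefl _ (h a hm)
  have hinner : innerBound (insert a S) v = rowBound (insert a S) v * innerBound S v := by
    unfold innerBound
    rw [prod_insert ha]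
    congr 1
    · rw [filter_true_of_mem]
      intro j hj
      rcases mem_insert.1 hj with rfl | hj
      · exact le_rfl
      · exact (h j hj).le
    · refine prod_congr rfl fun i hi => ?_
      rw [filter_insert, if_neg (not_le.2 (h i hi))]
  unfold potential
  rw [hinner, rowBound, evenPart_insert h, oddPart_insert h]
  set x := collide (insert a (oddPart S)) v
  set y := collide (evenPart S) v
  set z := collide (oddPart S) v
  have hx : 0 ≤ x := (collide_pos _ _).le
  rw [Real.sqrt_mul hx, mul_pow, mul_pow, pow_succ]
  have := Real.mul_self_sqrt hx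
  calc _ = innerBound S v * (Real.sqrt x * Real.sqrt x) * Real.sqrt y * (x ^ m * y ^ m) * z ^ m := by
        ring
    _ = _ := by rw [this]; ring

theorem sum_biUnion_le_sum_of_nonneg {α β : Type*} [DecidableEq β] (V : Finset α) (f : α → Finset β)
    (φ : β → ℝ) (h : ∀ b, 0 ≤ φ b) : ∑ b ∈ V.biUnion f, φ b ≤ ∑ a ∈ V, ∑ b ∈ f a, φ b := by
  classical
  induction V using Finset.induction_on with
  | empty => simp
  | insert a V ha ih =>
    rw [biUnion_insert, sum_insert ha]
    have := sum_union_inter (s₁ := f a) (s₂ := V.biUnion f) (f := φ)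
    have := sum_nonneg (s := f a ∩ V.biUnion f) fun b _ => h b
    linarith

/-- The main count: concentrated vectors on `S` carry little total weight. -/
theorem sum_potential_le (h2 : (2 : ZMod p) ≠ 0) (θ : ℝ) (hp : 2 < (p : ℝ) * θ) (m : ℕ)
    (hm : (p : ℝ) * (1 - 1 / 16384) ^ m ≤ 1 / 32) (S : Finset (Fin n)) :
    ∑ v ∈ (onSupport S).filter
        (fun v : Fin n → ZMod p => θ ≤ collide (evenPart S) v ∧ θ ≤ collide (oddPart S) v),
      potential m S v ≤ (1 / 16) ^ S.card := by
  classical
  induction S using Finset.induction_on_min with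
  | empty =>
    refine (sum_le_sum_of_subset_of_nonneg (t := {0}) ?_ fun v _ _ => potential_nonneg _ _ _).trans ?_
    · intro v hv
      have := Fintype.mem_piFinset.1 (mem_filter.1 hv).1
      simpa [funext_iff] using this
    · simp [potential, innerBound, evenPart, oddPart, collide_empty]
  | insert a S h ih =>
    have ha : a ∉ S := fun hm => lt_irrefl _ (h a hm)
    set V := (onSupport S).filter
      (fun v : Fin n → ZMod p => θ ≤ collide (evenPart S) v ∧ θ ≤ collide (oddPart S) v) with hV
    set V' := (onSupport (insert a S)).filter (fun v : Fin n → ZMod p =>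
      θ ≤ collide (evenPart (insert a S)) v ∧ θ ≤ collide (oddPart (insert a S)) v) with hV'
    have hupd : ∀ (w : Fin n → ZMod p) (T : Finset (Fin n)), T ⊆ S → ∀ c,
        collide T (Function.update w a c) = collide T w := fun w T hT c =>
      collide_congr T fun j hj => Function.update_of_ne (fun e : j = a => ha (e ▸ hT hj)) _ _
    have hodd : oddPart S ⊆ S := filter_subset _ _
    have heven : evenPart S ⊆ S := filter_subset _ _
    have hsub : V' ⊆ V.biUnion fun w => (univ.erase 0).image fun c => Function.update w a c := by
      intro v hv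
      obtain ⟨hv1, hv2, hv3⟩ := mem_filter.1 hv
      have hv1' := Fintype.mem_piFinset.1 hv1
      refine mem_biUnion.2 ⟨Function.update v a 0, mem_filter.2 ⟨Fintype.mem_piFinset.2 fun j => ?_,
        ?_, ?_⟩, mem_image.2 ⟨v a, by simpa using hv1' a, by simp⟩⟩
      · by_cases hj : j = a
        · subst hj; simp [ha]
        · simpa [hj] using hv1' j
      · rw [hupd v _ heven]
        rwa [oddPart_insert h] at hv3
      · rw [hupd v _ hodd]
        rw [evenPart_insert h] at hv2
        exact hv2.trans (collide_insert_le (fun e => ha (hodd e)) v)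
    refine (sum_le_sum_of_subset_of_nonneg hsub fun v _ _ => potential_nonneg _ _ _).trans ?_
    refine (sum_biUnion_le_sum_of_nonneg V _ _ fun v => potential_nonneg _ _ _).trans ?_
    rw [card_insert_of_notMem ha, pow_succ']
    refine le_trans ?_ (mul_le_mul_of_nonneg_left ih (by norm_num))
    rw [mul_sum]
    refine sum_le_sum fun w hw => ?_
    obtain ⟨hw1, hw2, hw3⟩ := mem_filter.1 hw
    set z := collide (oddPart S) w
    have hz : 0 < z := collide_pos _ _
    have hpz : 2 < (p : ℝ) * z :=
      hp.trans_le (mul_le_mul_of_nonneg_left hw3 (Nat.cast_nonneg _))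
    rw [sum_image (fun c _ c' _ e => by simpa using congrFun e a)]
    have hstep : ∀ c ∈ univ.erase (0 : ZMod p), potential m (insert a S) (Function.update w a c)
        ≤ potential m S w * (if c ∈ stableVals (oddPart S) w then z
            else (1 - 1 / 16384) ^ m) := by
      intro c hc
      have e := potential_step m h (Function.update w a c)
      rw [hupd w _ hodd, potential_congr m S (w := w) fun j hj =>
        Function.update_of_ne (fun e : j = a => ha (e ▸ hj)) _ _] at e
      set x := collide (insert a (oddPart S)) (Function.update w a c)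
      have hxz : x ≤ z := by
        have := collide_insert_le (fun e => ha (hodd e)) (Function.update w a c)
        rwa [hupd w _ hodd] at this
      have hx0 : 0 ≤ x := (collide_pos _ _).le
      have hP := potential_nonneg m S w
      refine le_of_mul_le_mul_right ?_ (pow_pos hz m)
      rw [e, mul_assoc]
      refine mul_le_mul_of_nonneg_left ?_ hP
      split_ifs with hs
      · rw [← pow_succ']
        exact pow_le_pow_left₀ hx0 hxz _
      · have hu := collide_insert_unstable (fun e => ha (hodd e)) (Function.update w a c)
          (by simpa using hc) (by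
            rwa [Function.update_self, stableVals_congr (oddPart S) (w := w) fun j hj =>
              Function.update_of_ne (fun e : j = a => ha (e ▸ hodd hj)) _ _])
        rw [hupd w _ hodd] at hu
        calc x ^ (m + 1) = x ^ m * x := pow_succ _ _
          _ ≤ ((1 - 1 / 16384) * z) ^ m * 1 :=
              mul_le_mul (pow_le_pow_left₀ hx0 hu _) (hxz.trans (collide_le_one _ _)) hx0
                (pow_nonneg (mul_nonneg (by norm_num) hz.le) _)
          _ = _ := by rw [mul_one, mul_pow]
    refine (sum_le_sum hstep).trans ?_
    rw [← mul_sum, mul_comm (1 / 16 : ℝ)]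
    refine mul_le_mul_of_nonneg_left ?_ (potential_nonneg m S w)
    rw [sum_ite, sum_const, sum_const, nsmul_eq_mul, nsmul_eq_mul]
    have h1 : (((univ.erase (0 : ZMod p)).filter (· ∈ stableVals (oddPart S) w)).card : ℝ) * z
        ≤ 1 / 32 :=
      (mul_le_mul_of_nonneg_right (Nat.cast_le.2
        (card_le_card fun c hc => (mem_filter.1 hc).2)) hz.le).trans (stableVals_weight _ _ h2 hpz)
    have h3 : (((univ.erase (0 : ZMod p)).filter fun c => c ∉ stableVals (oddPart S) w).card : ℝ)
        * (1 - 1 / 16384) ^ m ≤ 1 / 32 := by
      refine le_trans (mul_le_mul_of_nonneg_right ?_ (by norm_num)) hm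
      refine Nat.cast_le.2 ((card_le_univ _).trans ?_)
      rw [ZMod.card]
    linarith

end Vale.Agent.P160
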