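import Mathlib

/-! Signed sums in a finite commutative ring: value distribution and collision probability. -/

namespace Vale.Agent.P160

open Finset

set_option linter.unusedSectionVars false

variable {n : ℕ} {K : Type*} [CommRing K] [Fintype K] [DecidableEq K]

/-- The unit `1` or `-1` of a bit. -/
def unitSign (b : Bool) : K := if b then 1 else -1

/-- Probability that the signed sum of `v` over `J` equals `x`. -/
noncomputable def sumDist (J : Finset (Fin n)) (v : Fin n → K) (x : K) : ℝ :=
  ((univ.filter fun ε : Fin n → Bool => ∑ j ∈ J, v j * unitSign (ε j) = x).card : ℝ) / 2 ^ n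

theorem sumDist_nonneg (J : Finset (Fin n)) (v : Fin n → K) (x : K) : 0 ≤ sumDist J v x := by
  unfold sumDist; positivity

theorem sumDist_sum (J : Finset (Fin n)) (v : Fin n → K) : ∑ x, sumDist J v x = 1 := by
  unfold sumDist
  rw [← sum_div, ← Nat.cast_sum,
    ← card_eq_sum_card_fiberwise (fun _ _ => mem_univ _)]
  simp

theorem sumDist_congr (J : Finset (Fin n)) {v w : Fin n → K} (h : ∀ j ∈ J, v j = w j) (x : K) :
    sumDist J v x = sumDist J w x := by
  have e : ∀ ε : Fin n → Bool, ∑ j ∈ J, v j * unitSign (ε j) = ∑ j ∈ J, w j * unitSign (ε j) :=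
    fun ε => sum_congr rfl fun j hj => by rw [h j hj]
  simp only [sumDist, e]

theorem sumDist_empty (v : Fin n → K) (x : K) :
    sumDist ∅ v x = if x = 0 then 1 else 0 := by
  unfold sumDist
  by_cases h : x = 0
  · simp [h]
  · simp [h, Ne.symm h]

theorem sumDist_insert {a : Fin n} {J : Finset (Fin n)} (ha : a ∉ J) (v : Fin n → K) (x : K) :
    sumDist (insert a J) v x = (sumDist J v (x - v a) + sumDist J v (x + v a)) / 2 := by
  let f : (Fin n → Bool) → K := fun ε => ∑ j ∈ J, v j * unitSign (ε j)
  let flip : (Fin n → Bool) → (Fin n → Bool) := fun ε => Function.update ε a (!(ε a))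
  have hflip : Function.Involutive flip := by
    intro ε
    funext j
    by_cases hj : j = a
    · subst hj; simp [flip]
    · simp [flip, hj]
  have hf : ∀ ε, f (flip ε) = f ε := fun ε => sum_congr rfl fun j hj => by
    simp [flip, Function.update_of_ne (show j ≠ a from fun h => ha (h ▸ hj))]
  let N : K → Bool → ℕ := fun y b => (univ.filter fun ε => f ε = y ∧ ε a = b).card
  have hN : ∀ y, N y true = N y false := by
    intro y
    refine card_bij (fun ε _ => flip ε) ?_ (fun _ _ _ _ h => hflip.injective h) ?_
    · intro ε hε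
      simp only [mem_filter, mem_univ, true_and] at hε ⊢
      exact ⟨(hf ε).trans hε.1, by simp [flip, hε.2]⟩
    · intro ε hε
      simp only [mem_filter, mem_univ, true_and] at hε
      refine ⟨flip ε, mem_filter.2 ⟨mem_univ _, (hf ε).trans hε.1, ?_⟩, hflip ε⟩
      simp [flip, hε.2]
  have htot : ∀ y, (univ.filter fun ε : Fin n → Bool => f ε = y).card = N y true + N y false := by
    intro y
    simp only [N]
    rw [← filter_filter, ← filter_filter,
      ← card_filter_add_card_filter_not (fun ε : Fin n → Bool => ε a = true)]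
    simp
  have hins : (univ.filter fun ε : Fin n → Bool =>
      ∑ j ∈ insert a J, v j * unitSign (ε j) = x).card
        = N (x - v a) true + N (x + v a) false := by
    simp only [N]
    rw [← card_filter_add_card_filter_not (fun ε : Fin n → Bool => ε a = true), filter_filter,
      filter_filter]
    congr 2 <;> refine filter_congr fun ε _ => ?_
    · rw [sum_insert ha]
      constructor
      · rintro ⟨h1, h2⟩
        simp only [h2, unitSign, if_true, mul_one] at h1
        exact ⟨by rw [← h1]; simp [f, unitSign], h2⟩
      · rintro ⟨h1, h2⟩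
        simp only [h2, unitSign, if_true, mul_one, and_true]
        rw [show ∑ j ∈ J, v j * (if ε j = true then 1 else -1) = x - v a from h1]
        ring
    · rw [sum_insert ha]
      constructor
      · rintro ⟨h1, h2⟩
        simp only [Bool.not_eq_true] at h2
        simp only [h2, unitSign, Bool.false_eq_true, if_false] at h1
        refine ⟨?_, h2⟩
        rw [← h1]; simp [f, unitSign]
      · rintro ⟨h1, h2⟩
        simp only [h2, unitSign, Bool.false_eq_true, if_false, not_false_iff, and_true]
        rw [show ∑ j ∈ J, v j * (if ε j = true then 1 else -1) = x + v a from h1]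
        ring
  simp only [sumDist, hins]
  rw [show (univ.filter fun ε : Fin n → Bool => ∑ j ∈ J, v j * unitSign (ε j) = x - v a)
      = univ.filter fun ε => f ε = x - v a from rfl,
    show (univ.filter fun ε : Fin n → Bool => ∑ j ∈ J, v j * unitSign (ε j) = x + v a)
      = univ.filter fun ε => f ε = x + v a from rfl, htot, htot, hN, hN]
  push_cast
  ring

theorem sumDist_union (A B : Finset (Fin n)) (hAB : Disjoint A B) (v : Fin n → K) (x : K) :
    sumDist (A ∪ B) v x = ∑ y, sumDist A v y * sumDist B v (x - y) := by
  induction A using Finset.induction_on generalizing x with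
  | empty => simp [sumDist_empty]
  | insert a A ha ih =>
    rw [disjoint_insert_left] at hAB
    rw [insert_union, sumDist_insert (by simp [ha, hAB.1]), ih hAB.2, ih hAB.2]
    rw [eq_comm, sum_congr rfl fun y _ => by rw [sumDist_insert ha]]
    simp only [add_div, add_mul, sum_add_distrib, div_mul_eq_mul_div, ← sum_div]
    congr 2
    · rw [← Equiv.sum_comp (Equiv.addRight (v a))]
      exact sum_congr rfl fun y _ => by simp [sub_add_eq_sub_sub, sub_right_comm]
    · rw [← Equiv.sum_comp (Equiv.subRight (v a))]
      exact sum_congr rfl fun y _ => by simp only [Equiv.subRight_apply]; ring_nf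

/-- Autocorrelation of the value distribution. -/
noncomputable def autoCorr (J : Finset (Fin n)) (v : Fin n → K) (z : K) : ℝ :=
  ∑ x, sumDist J v x * sumDist J v (x + z)

/-- Collision probability of the signed sum. -/
noncomputable def collide (J : Finset (Fin n)) (v : Fin n → K) : ℝ := ∑ x, sumDist J v x ^ 2

/-- Squared distance of the value distribution to its shift by `z`. -/
noncomputable def shiftGap (J : Finset (Fin n)) (v : Fin n → K) (z : K) : ℝ :=
  ∑ x, (sumDist J v (x + z) - sumDist J v x) ^ 2

theorem collide_congr (J : Finset (Fin n)) {v w : Fin n → K} (h : ∀ j ∈ J, v j = w j) :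
    collide J v = collide J w := by
  simp only [collide, sumDist_congr J h]

theorem autoCorr_sum (J : Finset (Fin n)) (v : Fin n → K) : ∑ z, autoCorr J v z = 1 := by
  unfold autoCorr
  rw [sum_comm, ← sumDist_sum J v]
  refine sum_congr rfl fun x _ => ?_
  rw [← mul_sum, show ∑ z, sumDist J v (x + z) = ∑ y, sumDist J v y from
    Equiv.sum_comp (Equiv.addLeft x) _, sumDist_sum, mul_one]

theorem autoCorr_nonneg (J : Finset (Fin n)) (v : Fin n → K) (z : K) : 0 ≤ autoCorr J v z :=
  sum_nonneg fun _ _ => mul_nonneg (sumDist_nonneg _ _ _) (sumDist_nonneg _ _ _)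

theorem shiftGap_eq (J : Finset (Fin n)) (v : Fin n → K) (z : K) :
    shiftGap J v z = 2 * collide J v - 2 * autoCorr J v z := by
  simp only [shiftGap, sub_sq, sum_add_distrib, sum_sub_distrib]
  rw [show ∑ x, sumDist J v (x + z) ^ 2 = collide J v from
    Equiv.sum_comp (Equiv.addRight z) (fun y => sumDist J v y ^ 2)]
  simp only [collide, autoCorr, mul_sum]
  rw [show ∑ x, 2 * sumDist J v (x + z) * sumDist J v x
    = ∑ x, 2 * (sumDist J v x * sumDist J v (x + z)) from sum_congr rfl fun _ _ => by ring]
  simp only [← mul_sum]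
  ring

theorem shiftGap_nonneg (J : Finset (Fin n)) (v : Fin n → K) (z : K) : 0 ≤ shiftGap J v z :=
  sum_nonneg fun _ _ => sq_nonneg _

theorem shiftGap_add (J : Finset (Fin n)) (v : Fin n → K) (a b : K) {t : ℝ} (ht : 0 < t) :
    shiftGap J v (a + b) ≤ (1 + t) * shiftGap J v a + (1 + 1 / t) * shiftGap J v b := by
  rw [show shiftGap J v b
      = ∑ x, (sumDist J v (x + a + b) - sumDist J v (x + a)) ^ 2 from
    (Equiv.sum_comp (Equiv.addRight a) (fun y => (sumDist J v (y + b) - sumDist J v y) ^ 2)).symm]
  simp only [shiftGap, mul_sum, ← sum_add_distrib]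
  refine sum_le_sum fun x _ => ?_
  rw [show x + (a + b) = x + a + b from (add_assoc _ _ _).symm]
  set u := sumDist J v (x + a) - sumDist J v x
  set w := sumDist J v (x + a + b) - sumDist J v (x + a)
  rw [show sumDist J v (x + a + b) - sumDist J v x = u + w by ring]
  have h : 0 ≤ (t * u - w) ^ 2 / t := by positivity
  have e : (t * u - w) ^ 2 / t = t * u ^ 2 - 2 * u * w + 1 / t * w ^ 2 := by field_simp; ring
  nlinarith

theorem collide_insert {a : Fin n} {J : Finset (Fin n)} (ha : a ∉ J) (v : Fin n → K) :
    collide (insert a J) v = collide J v - shiftGap J v (2 * v a) / 4 := by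
  rw [shiftGap_eq]
  simp only [collide, sumDist_insert ha, div_pow, add_sq, ← sum_div, sum_add_distrib]
  rw [show ∑ x, sumDist J v (x - v a) ^ 2 = collide J v from
      Equiv.sum_comp (Equiv.subRight (v a)) (fun y => sumDist J v y ^ 2),
    show ∑ x, sumDist J v (x + v a) ^ 2 = collide J v from
      Equiv.sum_comp (Equiv.addRight (v a)) (fun y => sumDist J v y ^ 2),
    show ∑ x, 2 * sumDist J v (x - v a) * sumDist J v (x + v a)
      = 2 * autoCorr J v (2 * v a) by
      rw [autoCorr, mul_sum, ← Equiv.sum_comp (Equiv.addRight (v a))]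
      exact sum_congr rfl fun y _ => by simp [two_mul, add_assoc, add_mul]]
  simp only [collide]
  ring

theorem collide_insert_le {a : Fin n} {J : Finset (Fin n)} (ha : a ∉ J) (v : Fin n → K) :
    collide (insert a J) v ≤ collide J v := by
  rw [collide_insert ha]
  linarith [shiftGap_nonneg J v (2 * v a)]

theorem collide_empty (v : Fin n → K) : collide (∅ : Finset (Fin n)) v = 1 := by
  simp [collide, sumDist_empty]

theorem collide_le_one (J : Finset (Fin n)) (v : Fin n → K) : collide J v ≤ 1 := by
  induction J using Finset.induction_on with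
  | empty => rw [collide_empty]
  | insert a J ha ih => exact (collide_insert_le ha v).trans ih

theorem collide_pos (J : Finset (Fin n)) (v : Fin n → K) : 0 < collide J v := by
  obtain ⟨x, -, hx⟩ : ∃ x ∈ (univ : Finset K), sumDist J v x ≠ 0 :=
    exists_ne_zero_of_sum_ne_zero (by rw [sumDist_sum]; exact one_ne_zero)
  exact sum_pos' (fun _ _ => sq_nonneg _) ⟨x, mem_univ _, pow_two_pos_of_ne_zero hx⟩

theorem sumDist_sq_le (A B : Finset (Fin n)) (hAB : Disjoint A B) (v : Fin n → K) (x : K) :
    sumDist (A ∪ B) v x ^ 2 ≤ collide A v * collide B v := by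
  rw [sumDist_union A B hAB]
  refine (sum_mul_sq_le_sq_mul_sq _ _ _).trans (le_of_eq ?_)
  congr 1
  exact Equiv.sum_comp (Equiv.subLeft x) (fun y => sumDist B v y ^ 2)

end Vale.Agent.P160
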